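import Vale.Agent.P287D.Defs

/-!
# P287D: valuation algebra, I. Orders, principal b-divisors, systems
-/

set_option linter.unusedSectionVars false

open Set Pointwise
open Vale.Agent.P297 (Place)
open Vale.Agent.P297Z.Pl

noncomputable section

namespace Vale.Agent.P287D

variable {K : Type} [Field K] [Algebra ℂ K]

/-- the system has a nonzero member -/
def Nz (s : Finset K) : Prop := ∃ f ∈ s, f ≠ 0

namespace Pl

variable (P : Pl K) {s u : Finset K} {f g : K}

theorem ext' {P Q : Pl K} (h : P.ring = Q.ring) : P = Q := by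
  obtain ⟨p, _, _⟩ := P
  obtain ⟨q, _, _⟩ := Q
  obtain rfl : p = q := P297Z.Pl.ext' h
  rfl

theorem ord_const (c : ℂ) : P.ord (algebraMap ℂ K c) = 0 :=
  ord_unit _ (P.con c) (by rw [← map_inv₀]; exact P.con _)

theorem ord_smul {c : ℂ} (hc : c ≠ 0) (f : K) : P.ord (c • f) = P.ord f := by
  by_cases h : f = 0
  · simp [h]
  rw [Algebra.smul_def, ord_mul _ (by simpa using hc) h, ord_const, zero_add]

theorem t_ne : P.t ≠ 0 := (exists_ord_eq_one P.toPlace).choose_spec.1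

theorem ord_t : P.ord P.t = 1 := (exists_ord_eq_one P.toPlace).choose_spec.2

theorem ord_t_zpow (k : ℤ) : P.ord (P.t ^ k) = k := by rw [ord_zpow, ord_t, mul_one]

theorem ord_mul_t (hf : f ≠ 0) (k : ℤ) : P.ord (f * P.t ^ k) = P.ord f + k := by
  rw [ord_mul _ hf (zpow_ne_zero _ P.t_ne), ord_t_zpow]

theorem ord_prod {ι : Type*} (s : Finset ι) {f : ι → K} (h : ∀ i ∈ s, f i ≠ 0) :
    P.ord (∏ i ∈ s, f i) = ∑ i ∈ s, P.ord (f i) := by
  classical
  induction s using Finset.induction_on with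
  | empty => simp
  | insert i s hi ih =>
    have h' : ∀ j ∈ s, f j ≠ 0 := fun j hj => h j (Finset.mem_insert_of_mem hj)
    rw [Finset.prod_insert hi, Finset.sum_insert hi, ord_mul _ (h i (Finset.mem_insert_self _ _))
      (Finset.prod_ne_zero_iff.2 h'), ih h']

/-- the functions of order at least `-r` -/
def sub (r : ℝ) : Submodule ℂ K where
  carrier := {f | f = 0 ∨ 0 ≤ (P.ord f : ℝ) + r}
  zero_mem' := Or.inl rfl
  add_mem' := fun {f g} hf hg => by
    by_cases f0 : f = 0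
    · simpa [f0] using hg
    by_cases g0 : g = 0
    · simpa [g0] using hf
    refine or_iff_not_imp_left.2 fun h => ?_
    have b := hf.resolve_left f0
    have c := hg.resolve_left g0
    rcases min_le_iff.1 (min_ord_le_add P.toPlace f0 g0 h) with k | k <;>
      have k' := Int.cast_le (R := ℝ).2 k <;> linarith
  smul_mem' := fun a f hf => by
    by_cases h : a = 0
    · simp [h]
    rcases hf with hf | hf
    · simp [hf]
    · exact Or.inr (by rwa [ord_smul P h])

theorem mem_sub {r : ℝ} : f ∈ P.sub r ↔ f = 0 ∨ 0 ≤ (P.ord f : ℝ) + r := Iff.rfl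

theorem fin_mz (s : Finset K) : ((fun f => -P.ord f) '' {f | f ∈ s ∧ f ≠ 0}).Finite :=
  (s.finite_toSet.subset fun _ h => h.1).image _

theorem le_mz (hf : f ∈ s) (h0 : f ≠ 0) : -P.ord f ≤ P.mz s :=
  le_csSup (P.fin_mz s).bddAbove ⟨f, ⟨hf, h0⟩, rfl⟩

theorem exists_mz (h : Nz s) : ∃ f ∈ s, f ≠ 0 ∧ P.mz s = -P.ord f := by
  obtain ⟨g, hg⟩ := h
  obtain ⟨f, hf, e⟩ := Set.Nonempty.csSup_mem (Set.Nonempty.image _ ⟨g, hg⟩) (P.fin_mz s)
  exact ⟨f, hf.1, hf.2, e.symm⟩

theorem mz_of_not (h : ¬ Nz s) : P.mz s = 0 := by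
  have e : {f | f ∈ s ∧ f ≠ 0} = ∅ := eq_empty_of_forall_notMem fun f hf => h ⟨f, hf⟩
  rw [mz, e, image_empty, Int.csSup_empty]

theorem mz_le (h : Nz s) {k : ℤ} (hk : ∀ f ∈ s, f ≠ 0 → -P.ord f ≤ k) : P.mz s ≤ k := by
  obtain ⟨f, hf, h0, e⟩ := P.exists_mz h
  exact e ▸ hk f hf h0

theorem mz_eq (hf : f ∈ s) (h0 : f ≠ 0) (h : ∀ g ∈ s, g ≠ 0 → P.ord f ≤ P.ord g) :
    P.mz s = -P.ord f :=
  le_antisymm (P.mz_le ⟨f, hf, h0⟩ fun g hg g0 => neg_le_neg (h g hg g0)) (P.le_mz hf h0)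

theorem span_le_sub (s : Finset K) : Submodule.span ℂ (s : Set K) ≤ P.sub (P.mz s) :=
  Submodule.span_le.2 fun f hf => or_iff_not_imp_left.2 fun h0 => by
    have := Int.cast_le (R := ℝ).2 (P.le_mz hf h0)
    push_cast at this
    linarith

theorem le_mz_of_span (hf : f ∈ Submodule.span ℂ (s : Set K)) (h0 : f ≠ 0) :
    -P.ord f ≤ P.mz s := by
  have := (P.span_le_sub s hf).resolve_left h0
  have h : (0 : ℤ) ≤ P.ord f + P.mz s := by exact_mod_cast this
  omega

theorem mem_ring_mz (hf : f ∈ Submodule.span ℂ (s : Set K)) : f * P.t ^ P.mz s ∈ P.ring := by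
  by_cases h0 : f = 0
  · simp [h0]
  have := P.le_mz_of_span hf h0
  rw [← ord_nonneg_iff _ (mul_ne_zero h0 (zpow_ne_zero _ P.t_ne)), P.ord_mul_t h0]
  omega

theorem δ_self : P.δ P = 1 := if_pos rfl

theorem δ_ne {P Q : Pl K} (h : Q ≠ P) : P.δ Q = 0 := if_neg h

theorem δ_nonneg : 0 ≤ P.δ := fun Q => by
  unfold δ
  split_ifs <;> simp

end Pl

variable {s u : Finset K} {f g : K} {β γ : BD K}

theorem Nz.mono (h : Nz s) (e : s ⊆ u) : Nz u := let ⟨f, a, b⟩ := h; ⟨f, e a, b⟩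

theorem Nz.single (h : f ≠ 0) : Nz {f} := ⟨f, Finset.mem_singleton_self f, h⟩

theorem Nz.mul [DecidableEq K] (h : Nz s) (h' : Nz u) : Nz (s * u) :=
  let ⟨_, a, b⟩ := h
  let ⟨_, c, d⟩ := h'
  ⟨_, Finset.mul_mem_mul a c, mul_ne_zero b d⟩

theorem Nz.pow [DecidableEq K] (h : Nz s) (m : ℕ) : Nz (s ^ m) :=
  let ⟨_, a, b⟩ := h
  ⟨_, Finset.pow_mem_pow a, pow_ne_zero m b⟩

theorem dv_apply (f : K) (P : Pl K) : dv f P = P.ord f := rfl

theorem mx_apply (s : Finset K) (P : Pl K) : mx s P = P.mz s := rfl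

@[simp] theorem dv_zero : dv (0 : K) = 0 := funext fun P => by simp [dv]

@[simp] theorem dv_one : dv (1 : K) = 0 := funext fun P => by simp [dv]

theorem dv_mul (hf : f ≠ 0) (hg : g ≠ 0) : dv (f * g) = dv f + dv g :=
  funext fun P => by simp [dv, ord_mul _ hf hg]

theorem dv_inv (f : K) : dv f⁻¹ = -dv f := funext fun P => by simp [dv]

theorem dv_neg (f : K) : dv (-f) = dv f := funext fun P => by simp [dv]

theorem dv_div (hf : f ≠ 0) (hg : g ≠ 0) : dv (f / g) = dv f - dv g :=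
  funext fun P => by simp [dv, ord_div _ hf hg]

theorem dv_zpow (f : K) (k : ℤ) : dv (f ^ k) = (k : ℝ) • dv f :=
  funext fun P => by simp [dv, ord_zpow]

theorem dv_pow (f : K) (k : ℕ) : dv (f ^ k) = (k : ℝ) • dv f :=
  funext fun P => by simp [dv, ord_pow]

theorem dv_const (c : ℂ) : dv (algebraMap ℂ K c) = 0 := funext fun P => by simp [dv, P.ord_const]

theorem dv_smul {c : ℂ} (hc : c ≠ 0) (f : K) : dv (c • f) = dv f :=
  funext fun P => by simp [dv, P.ord_smul hc]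

theorem dv_prod {ι : Type*} (s : Finset ι) {f : ι → K} (h : ∀ i ∈ s, f i ≠ 0) :
    dv (∏ i ∈ s, f i) = ∑ i ∈ s, dv (f i) :=
  funext fun P => by simp [dv, P.ord_prod s h]

theorem mx_of_not (h : ¬ Nz s) : mx s = 0 := funext fun P => by simp [mx, P.mz_of_not h]

@[simp] theorem mx_empty : mx (∅ : Finset K) = 0 := mx_of_not fun ⟨_, h, _⟩ => by simp at h

theorem mx_single (f : K) : mx {f} = -dv f := funext fun P => by
  by_cases h : f = 0
  · rw [mx_of_not fun ⟨g, a, b⟩ => b ((Finset.mem_singleton.1 a).trans h), h]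
    simp
  · simp [mx, dv, P.mz_eq (Finset.mem_singleton_self f) h fun g hg _ =>
      by rw [Finset.mem_singleton.1 hg]]

theorem dv_eq_mx (f : K) : dv f = mx {f⁻¹} := by rw [mx_single, dv_inv, neg_neg]

theorem sec_of_span (hf : f ∈ Submodule.span ℂ (s : Set K)) : Sec (mx s) f :=
  or_iff_not_imp_left.2 fun h0 P => (P.span_le_sub s hf).resolve_left h0

theorem sec_of_mem (hf : f ∈ s) : Sec (mx s) f := sec_of_span (Submodule.subset_span hf)

theorem dv_add_mx_nonneg (hf : f ∈ s) (h0 : f ≠ 0) : 0 ≤ dv f + mx s :=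
  (sec_of_mem hf).resolve_left h0

/-- `mx s` is the least b-divisor of which the members of `s` are sections -/
theorem mx_le (h : Nz s) (hs : ∀ f ∈ s, Sec β f) : mx s ≤ β := fun P => by
  obtain ⟨f, hf, h0, e⟩ := P.exists_mz h
  have := (hs f hf).resolve_left h0 P
  simp only [mx, e, Pi.add_apply, Pi.zero_apply, dv] at this ⊢
  push_cast
  linarith

theorem mx_le_of_span (h : Nz u) (e : ∀ f ∈ u, f ∈ Submodule.span ℂ (s : Set K)) : mx u ≤ mx s :=
  mx_le h fun f hf => sec_of_span (e f hf)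

theorem mx_mono (h : Nz u) (e : u ⊆ s) : mx u ≤ mx s := mx_le h fun _ hf => sec_of_mem (e hf)

theorem nz_iff_span : Nz s ↔ Submodule.span ℂ (s : Set K) ≠ ⊥ := by
  simp [Nz, Submodule.span_eq_bot]

theorem mx_congr_span (e : Submodule.span ℂ (s : Set K) = Submodule.span ℂ (u : Set K)) :
    mx s = mx u := by
  by_cases h : Nz s
  · have h' : Nz u := nz_iff_span.2 (e ▸ nz_iff_span.1 h)
    exact le_antisymm (mx_le_of_span h fun f hf => e ▸ Submodule.subset_span hf)
      (mx_le_of_span h' fun f hf => e ▸ Submodule.subset_span hf)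
  · rw [mx_of_not h, mx_of_not fun h' => h (nz_iff_span.2 (e ▸ nz_iff_span.1 h'))]

theorem mx_nonneg (h : (1 : K) ∈ s) : 0 ≤ mx s := by simpa using dv_add_mx_nonneg h one_ne_zero

theorem mx_mul [DecidableEq K] (h : Nz s) (h' : Nz u) : mx (s * u) = mx s + mx u := by
  refine le_antisymm (mx_le (h.mul h') fun f hf => or_iff_not_imp_left.2 fun h0 => ?_) fun P => ?_
  · obtain ⟨a, ha, b, hb, rfl⟩ := Finset.mem_mul.1 hf
    have a0 := left_ne_zero_of_mul h0
    have b0 := right_ne_zero_of_mul h0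
    rw [dv_mul a0 b0, add_add_add_comm]
    exact add_nonneg (dv_add_mx_nonneg ha a0) (dv_add_mx_nonneg hb b0)
  · obtain ⟨a, ha, a0, e⟩ := P.exists_mz h
    obtain ⟨b, hb, b0, e'⟩ := P.exists_mz h'
    have := P.le_mz (Finset.mul_mem_mul ha hb) (mul_ne_zero a0 b0)
    rw [ord_mul _ a0 b0] at this
    have k : P.mz s + P.mz u ≤ P.mz (s * u) := by omega
    simp only [mx, Pi.add_apply]
    exact_mod_cast k

theorem mx_one [DecidableEq K] : mx (1 : Finset K) = 0 := by
  rw [← Finset.singleton_one, mx_single, dv_one, neg_zero]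

theorem mx_pow [DecidableEq K] (h : Nz s) (m : ℕ) : mx (s ^ m) = (m : ℝ) • mx s := by
  induction m with
  | zero => simp [mx_one]
  | succ m ih => rw [pow_succ, mx_mul (h.pow m) h, ih, Nat.cast_succ, add_smul, one_smul]

theorem mx_image_mul [DecidableEq K] (h : Nz s) (hg : g ≠ 0) :
    mx (s.image (· * g)) = mx s - dv g := by
  have e : s.image (· * g) = s * {g} := by
    ext x
    simp [Finset.mem_mul]
  rw [e, mx_mul h (.single hg), mx_single, sub_eq_add_neg]

theorem mx_union [DecidableEq K] (h : Nz s) (h' : Nz u) : mx (s ∪ u) = mx s ⊔ mx u := by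
  refine le_antisymm (mx_le (h.mono Finset.subset_union_left) fun f hf =>
    or_iff_not_imp_left.2 fun h0 => ?_) (sup_le (mx_mono h Finset.subset_union_left)
      (mx_mono h' Finset.subset_union_right))
  rcases Finset.mem_union.1 hf with k | k
  · exact (dv_add_mx_nonneg k h0).trans (add_le_add le_rfl le_sup_left)
  · exact (dv_add_mx_nonneg k h0).trans (add_le_add le_rfl le_sup_right)

theorem mx_pair [DecidableEq K] (hf : f ≠ 0) (hg : g ≠ 0) : mx {f, g} = -dv f ⊔ -dv g := by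
  rw [Finset.insert_eq, mx_union (.single hf) (.single hg), mx_single, mx_single]

/-- the divisor of poles -/
theorem mx_one_pair [DecidableEq K] (f : K) : mx {1, f} = 0 ⊔ -dv f := by
  by_cases h : f = 0
  · have e : mx ({1, 0} : Finset K) = mx {1} := mx_congr_span (by simp [Submodule.span_insert])
    rw [h, e, mx_single, dv_one, dv_zero, neg_zero, sup_idem]
  · rw [mx_pair one_ne_zero h, dv_one, neg_zero]

theorem dv_eq_sub [DecidableEq K] (f : K) : dv f = mx {1, f⁻¹} - mx {1, f} := by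
  rw [mx_one_pair, mx_one_pair, dv_inv, neg_neg]
  funext P
  simp only [Pi.sub_apply, Pi.sup_apply, Pi.zero_apply, Pi.neg_apply]
  rcases le_total 0 (dv f P) with h | h
  · rw [sup_eq_right.2 h, sup_eq_left.2 (neg_nonpos.2 h), sub_zero]
  · rw [sup_eq_left.2 h, sup_eq_right.2 (neg_nonneg.2 h), zero_sub, neg_neg]

/-- every system has the b-divisor of a system with a nonzero member -/
theorem exists_nz (s : Finset K) : ∃ u, Nz u ∧ mx u = mx s := by
  by_cases h : Nz s
  · exact ⟨s, h, rfl⟩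
  · exact ⟨{1}, .single one_ne_zero, by rw [mx_of_not h, mx_single, dv_one, neg_zero]⟩

theorem exists_mx_add (s u : Finset K) : ∃ w, Nz w ∧ mx w = mx s + mx u := by
  classical
  obtain ⟨a, ha, e⟩ := exists_nz s
  obtain ⟨b, hb, e'⟩ := exists_nz u
  exact ⟨a * b, ha.mul hb, by rw [mx_mul ha hb, e, e']⟩

theorem exists_mx_nsmul (s : Finset K) (m : ℕ) : ∃ w, Nz w ∧ mx w = (m : ℝ) • mx s := by
  classical
  obtain ⟨a, ha, e⟩ := exists_nz s
  exact ⟨a ^ m, ha.pow m, by rw [mx_pow ha, e]⟩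

theorem exists_mx_sum {ι : Type*} (T : Finset ι) (s : ι → Finset K) :
    ∃ w, Nz w ∧ mx w = ∑ i ∈ T, mx (s i) := by
  classical
  induction T using Finset.induction_on with
  | empty => simpa using exists_nz (∅ : Finset K)
  | insert i T hi ih =>
    obtain ⟨w, -, e⟩ := ih
    rw [Finset.sum_insert hi, ← e]
    exact exists_mx_add _ _

/-- every system is equivalent to one which contains `1` -/
theorem exists_one_mem (s : Finset K) : ∃ u f, f ≠ 0 ∧ (1 : K) ∈ u ∧ mx u = mx s + dv f := by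
  classical
  obtain ⟨a, ⟨f, hf, h0⟩, e⟩ := exists_nz s
  refine ⟨a.image (· * f⁻¹), f, h0, Finset.mem_image.2 ⟨f, hf, mul_inv_cancel₀ h0⟩, ?_⟩
  rw [mx_image_mul ⟨f, hf, h0⟩ (inv_ne_zero h0), dv_inv, e, sub_neg_eq_add]

theorem int_dv (f : K) (P : Pl K) : ∃ k : ℤ, dv f P = k := ⟨_, rfl⟩

theorem int_mx (s : Finset K) (P : Pl K) : ∃ k : ℤ, mx s P = k := ⟨_, rfl⟩

/-! ### sections -/

theorem sec_iff : Sec β f ↔ ∀ P : Pl K, f ∈ P.sub (β P) := by
  by_cases h : f = 0
  · simp [Sec, h]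
  · simp only [Sec, Pl.mem_sub, h, false_or]
    rfl

theorem mem_H0 : f ∈ H0 β ↔ Sec β f := by
  refine ⟨fun h => sec_iff.2 fun P => ?_, fun h => Submodule.subset_span h⟩
  exact (Submodule.span_le.2 fun g hg => sec_iff.1 hg P : H0 β ≤ P.sub (β P)) h

theorem Sec.zero (β : BD K) : Sec β 0 := Or.inl rfl

theorem Sec.mono (h : Sec β f) (e : β ≤ γ) : Sec γ f :=
  h.imp_right fun h => h.trans (add_le_add le_rfl e)

theorem Sec.add (h : Sec β f) (h' : Sec β g) : Sec β (f + g) :=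
  mem_H0.1 (add_mem (mem_H0.2 h) (mem_H0.2 h'))

theorem Sec.smul (h : Sec β f) (c : ℂ) : Sec β (c • f) :=
  mem_H0.1 (Submodule.smul_mem _ c (mem_H0.2 h))

theorem Sec.mul (h : Sec β f) (h' : Sec γ g) : Sec (β + γ) (f * g) :=
  or_iff_not_imp_left.2 fun h0 => by
    have a := left_ne_zero_of_mul h0
    have b := right_ne_zero_of_mul h0
    rw [dv_mul a b, add_add_add_comm]
    exact add_nonneg (h.resolve_left a) (h'.resolve_left b)

theorem Sec.pow (h : Sec β f) (m : ℕ) : Sec ((m : ℝ) • β) (f ^ m) := by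
  by_cases h0 : f = 0
  · rcases m.eq_zero_or_pos with rfl | hm
    · exact Or.inr (by simp)
    · exact Or.inl (by rw [h0, zero_pow hm.ne'])
  · exact Or.inr (by
      rw [dv_pow, ← smul_add]
      exact smul_nonneg (Nat.cast_nonneg m) (h.resolve_left h0))

theorem sec_one : Sec β 1 ↔ 0 ≤ β := by simp [Sec]

theorem sec_add_dv (hg : g ≠ 0) : Sec (β + dv g) f ↔ Sec β (f * g) := by
  by_cases h : f = 0
  · simp [Sec, h]
  · simp only [Sec, h, mul_ne_zero h hg, false_or, dv_mul h hg]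
    rw [add_comm β, add_assoc]

theorem H0_mono (e : β ≤ γ) : H0 β ≤ H0 γ := fun _ h => mem_H0.2 ((mem_H0.1 h).mono e)

theorem span_le_H0 (s : Finset K) : Submodule.span ℂ (s : Set K) ≤ H0 (mx s) :=
  fun _ h => mem_H0.2 (sec_of_span h)

theorem H0_add_dv (β : BD K) (hg : g ≠ 0) :
    (H0 (β + dv g)).map (LinearMap.mulRight ℂ g) = H0 β := by
  ext f
  simp only [Submodule.mem_map, mem_H0, sec_add_dv hg, LinearMap.mulRight_apply]
  exact ⟨fun ⟨_, a, b⟩ => b ▸ a, fun h => ⟨f / g, by rwa [div_mul_cancel₀ _ hg],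
    div_mul_cancel₀ _ hg⟩⟩

theorem h0_add_dv (β : BD K) (hg : g ≠ 0) : h0 (β + dv g) = h0 β := by
  rw [h0, h0, ← H0_add_dv β hg]
  exact (Submodule.equivMapOfInjective _ (mul_left_injective₀ hg) _).finrank_eq

theorem h0_mono [Module.Finite ℂ (H0 γ)] (e : β ≤ γ) : h0 β ≤ h0 γ :=
  Submodule.finrank_mono (H0_mono e)

theorem sec_floor : Sec (fun P => (⌊β P⌋ : ℝ)) f ↔ Sec β f :=
  or_congr_right (forall_congr' fun P => by
    change (0 : ℝ) ≤ (P.ord f : ℝ) + ⌊β P⌋ ↔ (0 : ℝ) ≤ (P.ord f : ℝ) + β P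
    rw [← neg_le_iff_add_nonneg', ← neg_le_iff_add_nonneg', ← Int.cast_neg, Int.cast_le,
      Int.le_floor])

end Vale.Agent.P287D
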