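import Vale.Agent.P287D.Va.Bas

/-!
# P287D: valuation algebra, II. Cartier, principal, semiample, effective, nef, big
-/

set_option linter.unusedSectionVars false

open Set Pointwise
open Vale.Agent.P297Z.Pl

noncomputable section

namespace Vale.Agent.P287D

variable {K : Type} [Field K] [Algebra ℂ K] {s u : Finset K} {f g : K} {β γ G G' : BD K} {c : ℝ}

theorem cmb_eq (l : Finset K →₀ ℝ) : cmb l = Finsupp.linearCombination ℝ mx l := rfl

@[simp] theorem cmb_zero : cmb (0 : Finset K →₀ ℝ) = 0 := by simp [cmb_eq]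

theorem cmb_add (l l' : Finset K →₀ ℝ) : cmb (l + l') = cmb l + cmb l' := by simp [cmb_eq]

theorem cmb_sub (l l' : Finset K →₀ ℝ) : cmb (l - l') = cmb l - cmb l' := by simp [cmb_eq]

theorem cmb_neg (l : Finset K →₀ ℝ) : cmb (-l) = -cmb l := by simp [cmb_eq]

theorem cmb_smul (c : ℝ) (l : Finset K →₀ ℝ) : cmb (c • l) = c • cmb l := by simp [cmb_eq]

theorem cmb_single (s : Finset K) (c : ℝ) : cmb (Finsupp.single s c) = c • mx s := by
  simp [cmb_eq]

theorem cmb_sum (l : Finset K →₀ ℝ) : cmb l = ∑ s ∈ l.support, l s • mx s := rfl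

/-! ### Cartier and principal -/

theorem mem_Car : β ∈ Car K ↔ ∃ l, β = cmb l :=
  Finsupp.mem_span_range_iff_exists_finsupp.trans (exists_congr fun _ => eq_comm)

theorem cmb_mem (l : Finset K →₀ ℝ) : cmb l ∈ Car K := mem_Car.2 ⟨l, rfl⟩

theorem mx_mem_Car (s : Finset K) : mx s ∈ Car K := Submodule.subset_span ⟨s, rfl⟩

theorem dv_mem_Car (f : K) : dv f ∈ Car K := dv_eq_mx f ▸ mx_mem_Car _

theorem dv_mem_Prn (f : K) : dv f ∈ Prn K := Submodule.subset_span ⟨f, rfl⟩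

theorem Prn_le_Car : Prn K ≤ Car K := Submodule.span_le.2 (by rintro _ ⟨f, rfl⟩; exact dv_mem_Car f)

theorem Car.ind {p : BD K → Prop} (h : β ∈ Car K) (h1 : ∀ s, Nz s → p (mx s))
    (h2 : ∀ a b, a ∈ Car K → b ∈ Car K → p a → p b → p (a + b))
    (h3 : ∀ (c : ℝ) a, a ∈ Car K → p a → p (c • a)) : p β := by
  have k : ∀ s, p (mx s) := fun s => let ⟨u, a, b⟩ := exists_nz s; b ▸ h1 u a
  induction h using Submodule.span_induction with
  | mem x hx => obtain ⟨s, rfl⟩ := hx; exact k s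
  | zero => exact mx_empty (K := K) ▸ k ∅
  | add a b ha hb x y => exact h2 a b ha hb x y
  | smul c a ha x => exact h3 c a ha x

theorem Prn.ind {p : BD K → Prop} (h : β ∈ Prn K) (h1 : ∀ f, f ≠ 0 → p (dv f))
    (h2 : ∀ a b, a ∈ Prn K → b ∈ Prn K → p a → p b → p (a + b))
    (h3 : ∀ (c : ℝ) a, a ∈ Prn K → p a → p (c • a)) : p β := by
  have k0 : p 0 := dv_one (K := K) ▸ h1 1 one_ne_zero
  induction h using Submodule.span_induction with
  | mem x hx =>
    obtain ⟨f, rfl⟩ := hx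
    by_cases h : f = 0
    · rwa [h, dv_zero]
    · exact h1 f h
  | zero => exact k0
  | add a b ha hb x y => exact h2 a b ha hb x y
  | smul c a ha x => exact h3 c a ha x

theorem mem_Prn : β ∈ Prn K ↔ ∃ (T : Finset K) (a : K → ℝ), (∀ f ∈ T, f ≠ 0) ∧
    β = ∑ f ∈ T, a f • dv f := by
  classical
  refine ⟨fun h => ?_, fun ⟨T, a, _, e⟩ =>
    e ▸ sum_mem fun f _ => Submodule.smul_mem _ _ (dv_mem_Prn f)⟩
  obtain ⟨l, rfl⟩ := Finsupp.mem_span_range_iff_exists_finsupp.1 h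
  refine ⟨l.support.erase 0, l, fun f hf => Finset.ne_of_mem_erase hf, ?_⟩
  rw [Finset.sum_erase _ (by simp)]
  rfl

theorem mx_mem_CarZ (s : Finset K) : mx s ∈ CarZ K := AddSubgroup.subset_closure ⟨s, rfl⟩

theorem dv_mem_CarZ (f : K) : dv f ∈ CarZ K := dv_eq_mx f ▸ mx_mem_CarZ _

theorem mem_CarZ : β ∈ CarZ K ↔ ∃ s u, Nz s ∧ Nz u ∧ β = mx s - mx u := by
  refine ⟨fun h => ?_, fun ⟨s, u, _, _, e⟩ => e ▸ sub_mem (mx_mem_CarZ s) (mx_mem_CarZ u)⟩
  obtain ⟨o, ho, eo⟩ := exists_nz (∅ : Finset K)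
  induction h using AddSubgroup.closure_induction with
  | mem x hx =>
    obtain ⟨s, rfl⟩ := hx
    obtain ⟨a, ha, e⟩ := exists_nz s
    exact ⟨a, o, ha, ho, by rw [e, eo, mx_empty, sub_zero]⟩
  | zero => exact ⟨o, o, ho, ho, (sub_self _).symm⟩
  | add a b _ _ x y =>
    obtain ⟨s, u, -, -, rfl⟩ := x
    obtain ⟨s', u', -, -, rfl⟩ := y
    obtain ⟨p, hp, e⟩ := exists_mx_add s s'
    obtain ⟨q, hq, e'⟩ := exists_mx_add u u'
    exact ⟨p, q, hp, hq, by rw [e, e', add_sub_add_comm]⟩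
  | neg a _ x =>
    obtain ⟨s, u, hs, hu, rfl⟩ := x
    exact ⟨u, s, hu, hs, neg_sub _ _⟩

theorem CarZ.car (h : β ∈ CarZ K) : β ∈ Car K := by
  obtain ⟨s, u, -, -, rfl⟩ := mem_CarZ.1 h
  exact sub_mem (mx_mem_Car s) (mx_mem_Car u)

theorem CarZ.int (h : β ∈ CarZ K) (P : Pl K) : ∃ k : ℤ, β P = k := by
  obtain ⟨s, u, -, -, rfl⟩ := mem_CarZ.1 h
  exact ⟨P.mz s - P.mz u, by simp [mx]⟩

theorem CarZ.zsmul (h : β ∈ CarZ K) (k : ℤ) : (k : ℝ) • β ∈ CarZ K := by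
  rw [Int.cast_smul_eq_zsmul]; exact zsmul_mem h k

theorem CarZ.nsmul (h : β ∈ CarZ K) (k : ℕ) : (k : ℝ) • β ∈ CarZ K := by
  rw [Nat.cast_smul_eq_nsmul]; exact nsmul_mem h k

theorem CarZ.carQ (h : β ∈ CarZ K) : CarQ β := ⟨1, one_pos, by simpa using h⟩

namespace CarQ

theorem zero : CarQ (0 : BD K) := CarZ.carQ (zero_mem _)

theorem car (h : CarQ β) : β ∈ Car K := by
  obtain ⟨m, hm, h⟩ := h
  have := (Car K).smul_mem (m : ℝ)⁻¹ (CarZ.car h)
  rwa [inv_smul_smul₀ (by exact_mod_cast hm.ne')] at this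

theorem add (h : CarQ β) (h' : CarQ γ) : CarQ (β + γ) := by
  obtain ⟨m, hm, h⟩ := h
  obtain ⟨k, hk, h'⟩ := h'
  refine ⟨m * k, Nat.mul_pos hm hk, ?_⟩
  have := add_mem (CarZ.nsmul h k) (CarZ.nsmul h' m)
  rwa [smul_smul, smul_smul, mul_comm (k : ℝ), ← smul_add, ← Nat.cast_mul] at this

theorem qsmul (h : CarQ β) (q : ℚ) : CarQ ((q : ℝ) • β) := by
  obtain ⟨m, hm, h⟩ := h
  refine ⟨m * q.den, Nat.mul_pos hm q.pos, ?_⟩
  have e : ((m * q.den : ℕ) : ℝ) * q = (q.num : ℝ) * m := by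
    have : (q.den : ℝ) * q = q.num := by exact_mod_cast q.den_mul_eq_num
    push_cast
    rw [mul_assoc, this, mul_comm]
  rw [smul_smul, e, ← smul_smul]
  exact CarZ.zsmul h _

theorem neg (h : CarQ β) : CarQ (-β) := by simpa using h.qsmul (-1)

theorem sub (h : CarQ β) (h' : CarQ γ) : CarQ (β - γ) := sub_eq_add_neg β γ ▸ h.add h'.neg

theorem sum {ι : Type*} (T : Finset ι) {b : ι → BD K} (h : ∀ i ∈ T, CarQ (b i)) :
    CarQ (∑ i ∈ T, b i) := Finset.sum_induction b CarQ (fun _ _ => add) zero h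

theorem rat (h : CarQ β) (P : Pl K) : ∃ q : ℚ, β P = q := by
  obtain ⟨m, hm, h⟩ := h
  obtain ⟨k, hk⟩ := CarZ.int h P
  refine ⟨k / m, ?_⟩
  have : (m : ℝ) ≠ 0 := by exact_mod_cast hm.ne'
  push_cast
  rw [eq_div_iff this, mul_comm, ← hk]
  rfl

end CarQ

theorem carQ_mx (s : Finset K) : CarQ (mx s) := CarZ.carQ (mx_mem_CarZ s)

theorem carQ_dv (f : K) : CarQ (dv f) := CarZ.carQ (dv_mem_CarZ f)

/-! ### semiample -/

theorem smp_mx (s : Finset K) : Smp (mx s) :=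
  ⟨Finsupp.single s 1, Finsupp.single_nonneg.2 zero_le_one, by rw [cmb_single, one_smul]⟩

theorem smp_dv (f : K) : Smp (dv f) := dv_eq_mx f ▸ smp_mx _

namespace Smp

theorem zero : Smp (0 : BD K) := ⟨0, le_rfl, cmb_zero.symm⟩

theorem add (h : Smp β) (h' : Smp γ) : Smp (β + γ) :=
  let ⟨l, a, b⟩ := h
  let ⟨l', c, d⟩ := h'
  ⟨l + l', add_nonneg a c, by rw [cmb_add, b, d]⟩

theorem smul (h : Smp β) (hc : 0 ≤ c) : Smp (c • β) :=
  let ⟨l, a, b⟩ := h
  ⟨c • l, smul_nonneg hc a, by rw [cmb_smul, b]⟩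

theorem of_smul (hc : 0 < c) (h : Smp (c • β)) : Smp β := by
  simpa [inv_smul_smul₀ hc.ne'] using h.smul (inv_nonneg.2 hc.le)

theorem sum {ι : Type*} (T : Finset ι) {b : ι → BD K} (h : ∀ i ∈ T, Smp (b i)) :
    Smp (∑ i ∈ T, b i) := Finset.sum_induction b Smp (fun _ _ => add) zero h

theorem car (h : Smp β) : β ∈ Car K := let ⟨l, _, b⟩ := h; mem_Car.2 ⟨l, b⟩

theorem ind {p : BD K → Prop} (h : Smp β) (h1 : ∀ s, Nz s → p (mx s))
    (h2 : ∀ a b, Smp a → Smp b → p a → p b → p (a + b))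
    (h3 : ∀ (c : ℝ) a, 0 ≤ c → Smp a → p a → p (c • a)) : p β := by
  have k : ∀ s, p (mx s) := fun s => let ⟨u, a, b⟩ := exists_nz s; b ▸ h1 u a
  obtain ⟨l, hl, rfl⟩ := h
  exact (Finset.sum_induction (fun s => l s • mx s) (fun a => Smp a ∧ p a)
    (fun a b x y => ⟨x.1.add y.1, h2 a b x.1 y.1 x.2 y.2⟩) ⟨zero, mx_empty (K := K) ▸ k ∅⟩
    fun s _ => ⟨(smp_mx s).smul (hl s), h3 _ _ (hl s) (smp_mx s) (k s)⟩).2

theorem of_prn (h : β ∈ Prn K) : Smp β := by
  obtain ⟨T, a, -, rfl⟩ := mem_Prn.1 h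
  refine sum T fun f _ => ?_
  rcases le_total 0 (a f) with k | k
  · exact (smp_dv f).smul k
  · simpa [dv_inv] using (smp_dv f⁻¹).smul (neg_nonneg.2 k)

theorem add_prn (h : Smp β) (h' : γ ∈ Prn K) : Smp (β + γ) := h.add (of_prn h')

theorem congr (h : Smp β) (h' : γ - β ∈ Prn K) : Smp γ := by simpa using h.add_prn h'

/-- between two semiample classes -/
theorem seg (h : Smp β) (h' : Smp (β + c • γ)) {t : ℝ} (h0 : 0 ≤ t) (ht : t ≤ c) :
    Smp (β + t • γ) := by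
  rcases h0.eq_or_lt with rfl | h0
  · simpa using h
  have hc : 0 < c := h0.trans_le ht
  have e : β + t • γ = (1 - t / c) • β + (t / c) • (β + c • γ) := by
    rw [smul_add, smul_smul, div_mul_cancel₀ _ hc.ne', ← add_assoc, ← add_smul, sub_add_cancel,
      one_smul]
  exact e ▸ (h.smul (sub_nonneg.2 ((div_le_one hc).2 ht))).add (h'.smul (div_pos h0 hc).le)

/-- a semiample class and a system which define the same variety -/
theorem exists_mx (h : Smp β) : ∃ (s : Finset K) (ε : ℝ), Nz s ∧ 0 < ε ∧ Smp (β - ε • mx s) ∧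
    Smp (mx s - ε • β) := by
  obtain ⟨l, hl, rfl⟩ := h
  obtain ⟨w, hw, e⟩ := exists_mx_sum l.support id
  obtain ⟨ε, h0, hε⟩ : ∃ ε : ℝ, 0 < ε ∧ ∀ s ∈ l.support, ε ≤ l s ∧ ε * l s ≤ 1 := by
    have k : ∀ s ∈ l.support, ∀ᶠ ε in nhdsWithin (0 : ℝ) (Ioi 0), ε ≤ l s ∧ ε * l s ≤ 1 :=
      fun s hs => by
        have p : 0 < l s := (hl s).lt_of_ne' (Finsupp.mem_support_iff.1 hs)
        filter_upwards [Ioo_mem_nhdsGT p, Ioo_mem_nhdsGT (inv_pos.2 p)] with ε a b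
        exact ⟨a.2.le, by rw [← le_div_iff₀ p, one_div]; exact b.2.le⟩
    exact ((eventually_mem_nhdsWithin.and ((Filter.eventually_all_finset _).2 k)).exists)
  refine ⟨w, ε, hw, h0, ?_, ?_⟩
  · rw [e, cmb_sum, Finset.smul_sum, ← Finset.sum_sub_distrib]
    exact sum _ fun s hs => by
      simpa [sub_smul] using (smp_mx s).smul (sub_nonneg.2 (hε s hs).1)
  · rw [e, cmb_sum, Finset.smul_sum, ← Finset.sum_sub_distrib]
    exact sum _ fun s hs => by
      simpa [sub_smul, smul_smul] using (smp_mx s).smul (sub_nonneg.2 (hε s hs).2)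

end Smp

/-- every Cartier b-divisor is dominated by a system -/
theorem Car.exists_mx (h : β ∈ Car K) : ∃ s, Nz s ∧ Smp (mx s + β) ∧ Smp (mx s - β) := by
  refine Car.ind (p := fun β => ∃ s, Nz s ∧ Smp (mx s + β) ∧ Smp (mx s - β)) h
    (fun s hs => ⟨s, hs, (smp_mx s).add (smp_mx s), by simpa using Smp.zero⟩) ?_ ?_
  · rintro a b - - ⟨s, -, x, y⟩ ⟨u, -, z, w⟩
    obtain ⟨p, hp, e⟩ := exists_mx_add s u
    exact ⟨p, hp, by rw [e, add_add_add_comm]; exact x.add z,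
      by rw [e, add_sub_add_comm]; exact y.add w⟩
  · rintro c a - ⟨s, -, x, y⟩
    obtain ⟨m, hm⟩ := exists_nat_ge |c|
    obtain ⟨p, hp, e⟩ := exists_mx_nsmul s m
    have k : ∀ c : ℝ, |c| ≤ m → Smp ((m : ℝ) • mx s + c • a) := fun c hc => by
      have z := (smp_mx s).smul (sub_nonneg.2 hc)
      rcases le_total 0 c with r | r
      · have := z.add (x.smul r)
        rwa [abs_of_nonneg r, smul_add, ← add_assoc, ← add_smul, sub_add_cancel] at this
      · have := z.add (y.smul (neg_nonneg.2 r))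
        rwa [abs_of_nonpos r, smul_sub, ← add_sub_assoc, ← add_smul, sub_add_cancel, neg_smul,
          sub_neg_eq_add] at this
    exact ⟨p, hp, e ▸ k c hm, by
      simpa [e, sub_eq_add_neg] using k (-c) (by rwa [abs_neg])⟩

theorem mem_Car_iff_sub : β ∈ Car K ↔ ∃ a b, Smp a ∧ Smp b ∧ β = a - b :=
  ⟨fun h => let ⟨s, _, a, _⟩ := Car.exists_mx h; ⟨_, _, a, smp_mx s, by simp⟩,
    fun ⟨_, _, x, y, e⟩ => e ▸ sub_mem x.car y.car⟩

/-! ### real linear systems -/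

namespace Rep

theorem nonneg (h : Rep β G) : 0 ≤ G := h.1

theorem prn (h : Rep β G) : G - β ∈ Prn K := h.2

theorem eff (h : Rep β G) : Eff β := ⟨G, h⟩

theorem refl (h : 0 ≤ G) : Rep G G := ⟨h, by simp⟩

theorem add (h : Rep β G) (h' : Rep γ G') : Rep (β + γ) (G + G') :=
  ⟨add_nonneg h.1 h'.1, by rw [add_sub_add_comm]; exact add_mem h.2 h'.2⟩

theorem smul (h : Rep β G) (hc : 0 ≤ c) : Rep (c • β) (c • G) :=
  ⟨smul_nonneg hc h.1, by rw [← smul_sub]; exact Submodule.smul_mem _ c h.2⟩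

theorem congr (h : Rep β G) (e : γ - β ∈ Prn K) : Rep γ G :=
  ⟨h.1, by simpa using sub_mem h.2 e⟩

theorem car (h : Rep β G) (e : β ∈ Car K) : G ∈ Car K := by
  simpa using add_mem (Prn_le_Car h.2) e

theorem smp (h : Rep β G) (e : Smp β) : Smp G := e.congr h.2

theorem sum {ι : Type*} (T : Finset ι) {b G : ι → BD K} (h : ∀ i ∈ T, Rep (b i) (G i)) :
    Rep (∑ i ∈ T, b i) (∑ i ∈ T, G i) :=
  ⟨Finset.sum_nonneg fun i hi => (h i hi).1,
    by rw [← Finset.sum_sub_distrib]; exact sum_mem fun i hi => (h i hi).2⟩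

end Rep

theorem Sec.rep (h : Sec β f) (h0 : f ≠ 0) : Rep β (dv f + β) :=
  ⟨h.resolve_left h0, by simpa using dv_mem_Prn f⟩

theorem Sec.eff (h : Sec β f) (h0 : f ≠ 0) : Eff β := (h.rep h0).eff

theorem eff_iff : Eff β ↔ ∃ Z ∈ Prn K, 0 ≤ β + Z :=
  ⟨fun ⟨G, a, b⟩ => ⟨G - β, b, by simpa using a⟩, fun ⟨Z, a, b⟩ => ⟨_, b, by simpa using a⟩⟩

/-- a general member of a system has the least order at finitely many given places -/
theorem exists_gen (h : Nz s) {T : Set (Pl K)} (hT : T.Finite) :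
    ∃ f ∈ Submodule.span ℂ (s : Set K), f ≠ 0 ∧ ∀ P ∈ T, (dv f + mx s) P = 0 := by
  have := hT.to_subtype
  obtain ⟨g, hg, g0⟩ := id h
  obtain ⟨x, hx⟩ := Submodule.exists_forall_notMem_of_forall_ne_top
    (fun P : Option T => (P.elim ⊥ fun P => P.1.sub (P.1.mz s - 1)).comap
      (Submodule.span ℂ (s : Set K)).subtype) (by
      rintro (_ | P) e
      · exact g0 (e.ge (Submodule.mem_top (x := ⟨g, Submodule.subset_span hg⟩)))
      · obtain ⟨f, hf, f0, k⟩ := P.1.exists_mz h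
        have a : f ∈ P.1.sub (P.1.mz s - 1) :=
          e.ge (Submodule.mem_top (x := ⟨f, Submodule.subset_span hf⟩))
        have := a.resolve_left f0
        rw [k] at this
        push_cast at this
        linarith)
  refine ⟨x, x.2, hx none, fun P hP => ?_⟩
  have a := P.le_mz_of_span x.2 (hx none)
  have b : ¬ (0 : ℝ) ≤ P.ord x + (P.mz s - 1) := fun k => hx (some ⟨P, hP⟩) (Or.inr k)
  have b' : ¬ 0 ≤ P.ord x + (P.mz s - 1) := by exact_mod_cast b
  have : P.ord x + P.mz s = 0 := by omega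
  change (P.ord x : ℝ) + P.mz s = 0
  exact_mod_cast this

/-- semiample classes move -/
theorem Smp.exists_rep (h : Smp β) {T : Set (Pl K)} (hT : T.Finite) :
    ∃ G, Rep β G ∧ ∀ P ∈ T, G P = 0 := by
  refine h.ind (p := fun β => ∃ G, Rep β G ∧ ∀ P ∈ T, G P = 0) (fun s hs => ?_) ?_ ?_
  · obtain ⟨f, hf, h0, e⟩ := exists_gen hs hT
    exact ⟨_, (sec_of_span hf).rep h0, e⟩
  · rintro a b - - ⟨G, x, y⟩ ⟨G', z, w⟩
    exact ⟨_, x.add z, fun P hP => by simp [y P hP, w P hP]⟩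
  · rintro c a hc - ⟨G, x, y⟩
    exact ⟨_, x.smul hc, fun P hP => by simp [y P hP]⟩

theorem Smp.eff (h : Smp β) : Eff β := let ⟨_, a, _⟩ := h.exists_rep finite_empty; a.eff

theorem eff_mx (s : Finset K) : Eff (mx s) := (smp_mx s).eff

namespace Eff

theorem of_nonneg (h : 0 ≤ β) : Eff β := (Rep.refl h).eff

theorem zero : Eff (0 : BD K) := of_nonneg le_rfl

theorem of_prn (h : β ∈ Prn K) : Eff β := ⟨0, le_rfl, by simpa using h⟩

theorem add (h : Eff β) (h' : Eff γ) : Eff (β + γ) :=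
  let ⟨_, a⟩ := h
  let ⟨_, b⟩ := h'
  (a.add b).eff

theorem smul (h : Eff β) (hc : 0 ≤ c) : Eff (c • β) := let ⟨_, a⟩ := h; (a.smul hc).eff

theorem of_smul (hc : 0 < c) (h : Eff (c • β)) : Eff β := by
  simpa [inv_smul_smul₀ hc.ne'] using h.smul (inv_nonneg.2 hc.le)

theorem mono (h : Eff β) (e : β ≤ γ) : Eff γ := by
  simpa using h.add (of_nonneg (sub_nonneg.2 e))

theorem congr (h : Eff β) (e : γ - β ∈ Prn K) : Eff γ := let ⟨_, a⟩ := h; (a.congr e).eff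

theorem add_prn (h : Eff β) (e : γ ∈ Prn K) : Eff (β + γ) := h.add (of_prn e)

theorem sum {ι : Type*} (T : Finset ι) {b : ι → BD K} (h : ∀ i ∈ T, Eff (b i)) :
    Eff (∑ i ∈ T, b i) := Finset.sum_induction b Eff (fun _ _ => add) zero h

theorem seg (h : Eff β) (h' : Eff (β + c • γ)) {t : ℝ} (h0 : 0 ≤ t) (ht : t ≤ c) :
    Eff (β + t • γ) := by
  rcases h0.eq_or_lt with rfl | h0
  · simpa using h
  have hc : 0 < c := h0.trans_le ht
  have e : β + t • γ = (1 - t / c) • β + (t / c) • (β + c • γ) := by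
    rw [smul_add, smul_smul, div_mul_cancel₀ _ hc.ne', ← add_assoc, ← add_smul, sub_add_cancel,
      one_smul]
  exact e ▸ (h.smul (sub_nonneg.2 ((div_le_one hc).2 ht))).add (h'.smul (div_pos h0 hc).le)

theorem psef (h : Eff β) : Psef β := ⟨∅, fun _ _ => by simpa using h⟩

end Eff

/-! ### nef -/

theorem Smp.nef (h : Smp β) : Nef β := ⟨∅, fun _ _ => by simpa using h⟩

theorem nef_mx (s : Finset K) : Nef (mx s) := (smp_mx s).nef

namespace Nef

theorem zero : Nef (0 : BD K) := Smp.zero.nef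

theorem of_prn (h : β ∈ Prn K) : Nef β := (Smp.of_prn h).nef

theorem add (h : Nef β) (h' : Nef γ) : Nef (β + γ) := by
  obtain ⟨s, hs⟩ := h
  obtain ⟨u, hu⟩ := h'
  obtain ⟨w, -, e⟩ := exists_mx_add s u
  exact ⟨w, fun ε h => by rw [e, smul_add, add_add_add_comm]; exact (hs ε h).add (hu ε h)⟩

theorem smul (h : Nef β) (hc : 0 ≤ c) : Nef (c • β) := by
  rcases hc.eq_or_lt with rfl | hc
  · simpa using zero
  obtain ⟨s, hs⟩ := h
  refine ⟨s, fun ε h => ?_⟩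
  have := (hs (ε / c) (div_pos h hc)).smul hc.le
  rwa [smul_add, smul_smul, mul_div_cancel₀ _ hc.ne'] at this

theorem of_smul (hc : 0 < c) (h : Nef (c • β)) : Nef β := by
  simpa [inv_smul_smul₀ hc.ne'] using h.smul (inv_nonneg.2 hc.le)

theorem add_prn (h : Nef β) (e : γ ∈ Prn K) : Nef (β + γ) := h.add (of_prn e)

theorem congr (h : Nef β) (e : γ - β ∈ Prn K) : Nef γ := by simpa using h.add_prn e

theorem sum {ι : Type*} (T : Finset ι) {b : ι → BD K} (h : ∀ i ∈ T, Nef (b i)) :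
    Nef (∑ i ∈ T, b i) := Finset.sum_induction b Nef (fun _ _ => add) zero h

theorem car (h : Nef β) : β ∈ Car K := by
  obtain ⟨s, hs⟩ := h
  simpa using sub_mem (hs 1 one_pos).car (Submodule.smul_mem _ 1 (mx_mem_Car s))

theorem psef (h : Nef β) : Psef β := let ⟨s, hs⟩ := h; ⟨s, fun ε h => (hs ε h).eff⟩

theorem of_smp (hγ : γ ∈ Car K) (h : ∀ ε : ℝ, 0 < ε → Smp (β + ε • γ)) : Nef β := by
  obtain ⟨s, -, -, hs⟩ := Car.exists_mx hγ
  exact ⟨s, fun ε k => by simpa [smul_sub] using (h ε k).add (hs.smul k.le)⟩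

end Nef

theorem Num.of_prn (h : β ∈ Prn K) : Num β := ⟨.of_prn h, .of_prn (neg_mem h)⟩

theorem Num.zero : Num (0 : BD K) := .of_prn (zero_mem _)

theorem Num.neg (h : Num β) : Num (-β) := ⟨h.2, by simpa using h.1⟩

theorem Num.add (h : Num β) (h' : Num γ) : Num (β + γ) :=
  ⟨h.1.add h'.1, by rw [neg_add]; exact h.2.add h'.2⟩

theorem Num.smul (h : Num β) (c : ℝ) : Num (c • β) := by
  rcases le_total 0 c with k | k
  · exact ⟨h.1.smul k, by simpa using h.2.smul k⟩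
  · exact ⟨by simpa using h.2.smul (neg_nonneg.2 k), by simpa using h.1.smul (neg_nonneg.2 k)⟩

theorem Num.car (h : Num β) : β ∈ Car K := h.1.car

/-! ### pseudo-effective and big -/

theorem Smp.psef (h : Smp β) : Psef β := h.eff.psef

namespace Psef

theorem zero : Psef (0 : BD K) := Eff.zero.psef

theorem add (h : Psef β) (h' : Psef γ) : Psef (β + γ) := by
  obtain ⟨s, hs⟩ := h
  obtain ⟨u, hu⟩ := h'
  obtain ⟨w, -, e⟩ := exists_mx_add s u
  exact ⟨w, fun ε h => by rw [e, smul_add, add_add_add_comm]; exact (hs ε h).add (hu ε h)⟩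

theorem smul (h : Psef β) (hc : 0 ≤ c) : Psef (c • β) := by
  rcases hc.eq_or_lt with rfl | hc
  · simpa using zero
  obtain ⟨s, hs⟩ := h
  refine ⟨s, fun ε h => ?_⟩
  have := (hs (ε / c) (div_pos h hc)).smul hc.le
  rwa [smul_add, smul_smul, mul_div_cancel₀ _ hc.ne'] at this

theorem of_smul (hc : 0 < c) (h : Psef (c • β)) : Psef β := by
  simpa [inv_smul_smul₀ hc.ne'] using h.smul (inv_nonneg.2 hc.le)

theorem mono (h : Psef β) (e : β ≤ γ) : Psef γ := by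
  simpa using h.add (Eff.of_nonneg (sub_nonneg.2 e)).psef

theorem add_prn (h : Psef β) (e : γ ∈ Prn K) : Psef (β + γ) := h.add (Eff.of_prn e).psef

theorem congr (h : Psef β) (e : γ - β ∈ Prn K) : Psef γ := by simpa using h.add_prn e

theorem sum {ι : Type*} (T : Finset ι) {b : ι → BD K} (h : ∀ i ∈ T, Psef (b i)) :
    Psef (∑ i ∈ T, b i) := Finset.sum_induction b Psef (fun _ _ => add) zero h

theorem of_eff (hγ : γ ∈ Car K) (h : ∀ ε : ℝ, 0 < ε → Eff (β + ε • γ)) : Psef β := by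
  obtain ⟨s, -, -, hs⟩ := Car.exists_mx hγ
  exact ⟨s, fun ε k => by simpa [smul_sub] using (h ε k).add (hs.eff.smul k.le)⟩

end Psef

namespace Big

theorem eff (h : Big β) : Eff β := let ⟨_, _, a⟩ := h ∅; by simpa using a

theorem psef (h : Big β) : Psef β := h.eff.psef

theorem add_psef (h : Big β) (h' : Psef γ) : Big (β + γ) := fun s => by
  obtain ⟨u, hu⟩ := h'
  obtain ⟨w, -, e⟩ := exists_mx_add s u
  obtain ⟨ε, h0, k⟩ := h w
  refine ⟨ε, h0, ?_⟩
  have := k.add (hu ε h0)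
  rw [e, smul_add] at this
  exact this.mono (le_of_eq (by abel))

theorem add_eff (h : Big β) (h' : Eff γ) : Big (β + γ) := h.add_psef h'.psef

theorem add_nef (h : Big β) (h' : Nef γ) : Big (β + γ) := h.add_psef h'.psef

theorem add_smp (h : Big β) (h' : Smp γ) : Big (β + γ) := h.add_psef h'.psef

theorem add (h : Big β) (h' : Big γ) : Big (β + γ) := h.add_psef h'.psef

theorem of_sub (h : Big β) (h' : Psef (γ - β)) : Big γ := by simpa using h.add_psef h'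

theorem smul (h : Big β) (hc : 0 < c) : Big (c • β) := fun s =>
  let ⟨ε, h0, k⟩ := h s
  ⟨c * ε, mul_pos hc h0, by simpa [smul_sub, smul_smul] using k.smul hc.le⟩

theorem of_smul (hc : 0 < c) (h : Big (c • β)) : Big β := by
  simpa [inv_smul_smul₀ hc.ne'] using h.smul (inv_pos.2 hc)

theorem mono (h : Big β) (e : β ≤ γ) : Big γ := by
  simpa using h.add_eff (.of_nonneg (sub_nonneg.2 e))

theorem add_prn (h : Big β) (e : γ ∈ Prn K) : Big (β + γ) := h.add_eff (.of_prn e)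

theorem congr (h : Big β) (e : γ - β ∈ Prn K) : Big γ := by simpa using h.add_prn e

theorem exists_eff (h : Big β) (hγ : γ ∈ Car K) : ∃ ε : ℝ, 0 < ε ∧ Eff (β - ε • γ) := by
  obtain ⟨s, -, -, hs⟩ := Car.exists_mx hγ
  obtain ⟨ε, h0, k⟩ := h s
  exact ⟨ε, h0, by simpa [smul_sub] using k.add (hs.eff.smul h0.le)⟩

/-- the big cone is open -/
theorem opn (h : Big β) (hγ : γ ∈ Car K) :
    ∃ ε : ℝ, 0 < ε ∧ ∀ t : ℝ, |t| ≤ ε → Big (β + t • γ) := by
  obtain ⟨s, -, a, b⟩ := Car.exists_mx hγ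
  obtain ⟨ε, h0, k⟩ := h.smul (c := 1 / 2) one_half_pos s
  refine ⟨ε, h0, fun t ht => ?_⟩
  have z : Eff (ε • mx s + t • γ) := by
    have y := (eff_mx s).smul (sub_nonneg.2 ht)
    rcases le_total 0 t with r | r
    · have := y.add (a.eff.smul r)
      rwa [abs_of_nonneg r, smul_add, ← add_assoc, ← add_smul, sub_add_cancel] at this
    · have := y.add (b.eff.smul (neg_nonneg.2 r))
      rwa [abs_of_nonpos r, smul_sub, ← add_sub_assoc, ← add_smul, sub_add_cancel, neg_smul,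
        sub_neg_eq_add] at this
  have := (h.smul (c := 1 / 2) one_half_pos).add_eff (k.add z)
  refine this.mono (le_of_eq ?_)
  rw [← add_assoc, ← add_sub_assoc, ← add_smul, add_halves, one_smul]
  abel

theorem exists_sub (h : Big β) (hγ : γ ∈ Car K) : ∃ ε : ℝ, 0 < ε ∧ Big (β - ε • γ) :=
  let ⟨ε, h0, k⟩ := h.opn hγ
  ⟨ε, h0, by simpa [sub_eq_add_neg] using k (-ε) (by rw [abs_neg, abs_of_pos h0])⟩

end Big

theorem Psef.add_big (h : Psef β) (h' : Big γ) : Big (β + γ) := add_comm γ β ▸ h'.add_psef h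

theorem big_iff {A : BD K} (hA : Big A) (h : A ∈ Car K) :
    Big β ↔ ∃ ε : ℝ, 0 < ε ∧ Psef (β - ε • A) :=
  ⟨fun k => let ⟨ε, a, b⟩ := k.exists_eff h; ⟨ε, a, b.psef⟩,
    fun ⟨_, a, b⟩ => (hA.smul a).of_sub b⟩

theorem psef_iff {A : BD K} (hA : Big A) (h : A ∈ Car K) :
    Psef β ↔ ∀ ε : ℝ, 0 < ε → Eff (β + ε • A) :=
  ⟨fun k _ e => (k.add_big (hA.smul e)).eff, .of_eff h⟩

/-- the pseudo-effective cone is closed -/
theorem Psef.of_lim {A : BD K} (hA : Big A) (h : A ∈ Car K) (hγ : γ ∈ Car K)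
    (k : ∀ η : ℝ, 0 < η → ∃ t : ℝ, |t| ≤ η ∧ Psef (β + t • γ)) : Psef β := by
  refine (psef_iff hA h).2 fun ε e => ?_
  obtain ⟨η, h0, a⟩ := (hA.smul e).opn hγ
  obtain ⟨t, ht, b⟩ := k η h0
  refine (b.add_big (a (-t) (by rwa [abs_neg]))).eff.mono (le_of_eq ?_)
  rw [neg_smul]
  abel

end Vale.Agent.P287D
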