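import Vale.Agent.P287D.Va.Cone

/-!
# P287D: valuation algebra, III. Descent, ample classes, centres
-/

set_option linter.unusedSectionVars false

open Set

noncomputable section

namespace Vale.Agent.P287D

variable {K : Type} [Field K] [Algebra ℂ K] {Λ Λ' A A' β γ G : BD K} {c : ℝ} {n : ℕ}
  {P Q R : Pl K}

namespace Dsc

theorem smp (h : Dsc Λ β) : Smp Λ := by
  obtain ⟨ε, -, a, b⟩ := h
  refine .of_smul two_pos ?_
  simpa [two_smul] using a.add b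

theorem car (h : Dsc Λ β) : β ∈ Car K := by
  obtain ⟨ε, h0, a, -⟩ := id h
  have := (Car K).smul_mem ε⁻¹ (sub_mem a.car h.smp.car)
  rwa [add_sub_cancel_left, inv_smul_smul₀ h0.ne'] at this

theorem exists_abs (h : Dsc Λ β) : ∃ ε : ℝ, 0 < ε ∧ ∀ t : ℝ, |t| ≤ ε → Smp (Λ + t • β) := by
  obtain ⟨ε, h0, a, b⟩ := id h
  refine ⟨ε, h0, fun t ht => ?_⟩
  rcases le_total 0 t with r | r
  · exact h.smp.seg a r (le_of_abs_le ht)
  · have b' : Smp (Λ + ε • -β) := by simpa [sub_eq_add_neg] using b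
    simpa using h.smp.seg b' (neg_nonneg.2 r) ((neg_le_abs t).trans ht)

theorem of_abs {ε : ℝ} (h0 : 0 < ε) (h : ∀ t : ℝ, |t| ≤ ε → Smp (Λ + t • β)) : Dsc Λ β :=
  ⟨ε, h0, h ε (abs_of_pos h0).le, by
    simpa [sub_eq_add_neg] using h (-ε) (by rw [abs_neg, abs_of_pos h0])⟩

theorem of_prn (h : Smp Λ) (e : β ∈ Prn K) : Dsc Λ β :=
  of_abs one_pos fun t _ => h.add_prn (Submodule.smul_mem _ t e)

theorem zero (h : Smp Λ) : Dsc Λ 0 := of_prn h (zero_mem _)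

theorem dv (h : Smp Λ) (f : K) : Dsc Λ (dv f) := of_prn h (dv_mem_Prn f)

theorem refl (h : Smp Λ) : Dsc Λ Λ :=
  ⟨1, one_pos, by simpa using h.add h, by simpa using Smp.zero⟩

theorem of_smp (hΛ : Smp Λ) (hβ : Smp β) {ε : ℝ} (h0 : 0 < ε) (h : Smp (Λ - ε • β)) : Dsc Λ β :=
  ⟨ε, h0, hΛ.add (hβ.smul h0.le), h⟩

theorem exists_sub (h : Dsc Λ β) : ∃ ε : ℝ, 0 < ε ∧ Smp (Λ - ε • β) :=
  let ⟨ε, a, _, b⟩ := h; ⟨ε, a, b⟩

theorem neg (h : Dsc Λ β) : Dsc Λ (-β) :=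
  let ⟨ε, a, b, c⟩ := h
  ⟨ε, a, by simpa [sub_eq_add_neg] using c, by simpa using b⟩

theorem smul (h : Dsc Λ β) (c : ℝ) : Dsc Λ (c • β) := by
  obtain ⟨ε, h0, k⟩ := h.exists_abs
  have p : 0 < |c| + 1 := by positivity
  refine of_abs (div_pos h0 p) fun t ht => ?_
  rw [smul_smul]
  refine k _ ?_
  rw [le_div_iff₀ p] at ht
  rw [abs_mul]
  nlinarith [abs_nonneg t]

theorem add (h : Dsc Λ β) (h' : Dsc Λ γ) : Dsc Λ (β + γ) := by
  obtain ⟨ε, h0, k⟩ := h.exists_abs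
  obtain ⟨η, h1, k'⟩ := h'.exists_abs
  refine of_abs (half_pos (lt_min h0 h1)) fun t ht => .of_smul two_pos ?_
  have a : |2 * t| ≤ min ε η := by rw [abs_mul, abs_two]; linarith
  have := (k _ (a.trans (min_le_left _ _))).add (k' _ (a.trans (min_le_right _ _)))
  rwa [add_add_add_comm, ← two_smul ℝ, ← smul_add, ← smul_smul, ← smul_add] at this

theorem sub (h : Dsc Λ β) (h' : Dsc Λ γ) : Dsc Λ (β - γ) := sub_eq_add_neg β γ ▸ h.add h'.neg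

theorem add_prn (h : Dsc Λ β) (e : γ ∈ Prn K) : Dsc Λ (β + γ) := h.add (of_prn h.smp e)

theorem congr (h : Dsc Λ β) (e : γ - β ∈ Prn K) : Dsc Λ γ := by simpa using h.add_prn e

theorem sum (h : Smp Λ) {ι : Type*} (T : Finset ι) {b : ι → BD K} (k : ∀ i ∈ T, Dsc Λ (b i)) :
    Dsc Λ (∑ i ∈ T, b i) := Finset.sum_induction b (Dsc Λ) (fun _ _ => add) (zero h) k

/-- pass to a higher model -/
theorem up (h : Dsc Λ β) {ε : ℝ} (h0 : 0 < ε) (k : Smp (Λ' - ε • Λ)) : Dsc Λ' β := by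
  obtain ⟨η, h1, a⟩ := h.exists_abs
  refine of_abs (mul_pos h0 h1) fun t ht => ?_
  have := k.add ((a (t / ε) (by rwa [abs_div, abs_of_pos h0, div_le_iff₀' h0])).smul h0.le)
  rwa [smul_add, smul_smul, mul_div_cancel₀ _ h0.ne', ← add_assoc, sub_add_cancel] at this

theorem trans (h : Dsc Λ' Λ) (h' : Dsc Λ β) : Dsc Λ' β :=
  let ⟨_, a, b⟩ := h.exists_sub; h'.up a b

theorem add_left (h : Dsc Λ β) (k : Smp A) : Dsc (Λ + A) β := h.up one_pos (by simpa using k)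

theorem add_left' (h : Dsc Λ β) (k : Smp A) : Dsc (A + Λ) β := add_comm Λ A ▸ h.add_left k

theorem smul_left (h : Dsc Λ β) (hc : 0 < c) : Dsc (c • Λ) β := h.up hc (by simpa using Smp.zero)

theorem congr_left (h : Dsc Λ β) (e : Λ' - Λ ∈ Prn K) : Dsc Λ' β :=
  h.up one_pos (by simpa using Smp.of_prn e)

theorem self_add (hΛ : Smp Λ) (hA : Smp A) : Dsc (Λ + A) Λ := (refl hΛ).add_left hA

theorem add_self (hΛ : Smp Λ) (hA : Smp A) : Dsc (Λ + A) A := (refl hA).add_left' hΛ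

/-- `β + c Λ` is semiample for large `c` -/
theorem exists_add (h : Dsc Λ β) : ∃ c₀ : ℝ, 0 < c₀ ∧ ∀ c, c₀ ≤ c → Smp (β + c • Λ) := by
  obtain ⟨ε, h0, a, -⟩ := id h
  refine ⟨ε⁻¹, inv_pos.2 h0, fun c hc => ?_⟩
  have := (a.smul (inv_pos.2 h0).le).add (h.smp.smul (sub_nonneg.2 hc))
  rwa [smul_add, inv_smul_smul₀ h0.ne', sub_smul, add_comm (ε⁻¹ • Λ), add_assoc,
    add_sub_cancel] at this

theorem big (h : Dsc Λ β) (hβ : Big β) : Big Λ :=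
  let ⟨_, a, b⟩ := h.exists_sub; (hβ.smul a).of_sub b.psef

end Dsc

/-- the real Cartier divisors of `V Λ` -/
def dscS (h : Smp Λ) : Submodule ℝ (BD K) where
  carrier := {β | Dsc Λ β}
  zero_mem' := Dsc.zero h
  add_mem' := Dsc.add
  smul_mem' := fun c _ h => Dsc.smul h c

theorem mem_dscS (h : Smp Λ) : β ∈ dscS h ↔ Dsc Λ β := Iff.rfl

theorem Dsc.of_span (h : Smp Λ) {T : Set (BD K)} (k : ∀ b ∈ T, Dsc Λ b)
    (e : β ∈ Submodule.span ℝ T) : Dsc Λ β := (Submodule.span_le (p := dscS h)).2 k e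

theorem Car.exists_dsc (h : β ∈ Car K) : ∃ s, Nz s ∧ Dsc (mx s) β :=
  let ⟨s, a, b, c⟩ := Car.exists_mx h
  ⟨s, a, 1, one_pos, by simpa using b, by simpa using c⟩

/-- finitely many Cartier b-divisors descend to one model -/
theorem exists_dsc_fin {B : Set (BD K)} (hB : B.Finite) (h : B ⊆ Car K) :
    ∃ s, Nz s ∧ ∀ β ∈ B, Dsc (mx s) β := by
  induction B, hB using Set.Finite.induction_on with
  | empty => exact ⟨{1}, .single one_ne_zero, fun _ h => h.elim⟩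
  | @insert a B _ _ ih =>
    obtain ⟨s, -, hs⟩ := ih ((subset_insert _ _).trans h)
    obtain ⟨u, -, hu⟩ := Car.exists_dsc (h (mem_insert _ _))
    obtain ⟨w, hw, e⟩ := exists_mx_add s u
    refine ⟨w, hw, ?_⟩
    rintro b (rfl | hb)
    · exact e ▸ hu.add_left' (smp_mx s)
    · exact e ▸ (hs b hb).add_left (smp_mx u)

namespace AmpOn

theorem dsc (h : AmpOn Λ A) : Dsc Λ A := h.1

theorem smp_left (h : AmpOn Λ A) : Smp Λ := h.1.smp

theorem smp (h : AmpOn Λ A) : Smp A := by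
  obtain ⟨ε, h0, k⟩ := h.2
  simpa using k.add (h.smp_left.smul h0.le)

theorem dsc' (h : AmpOn Λ A) : Dsc A Λ :=
  let ⟨_, a, b⟩ := h.2; .of_smp h.smp h.smp_left a b

theorem symm (h : AmpOn Λ A) : AmpOn A Λ := ⟨h.dsc', h.1.exists_sub⟩

theorem of_dsc (h : Dsc Λ A) (h' : Dsc A Λ) : AmpOn Λ A := ⟨h, h'.exists_sub⟩

theorem refl (h : Smp Λ) : AmpOn Λ Λ := of_dsc (.refl h) (.refl h)

theorem trans (h : AmpOn Λ A) (h' : AmpOn A A') : AmpOn Λ A' :=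
  of_dsc (h.1.trans h'.1) (h'.dsc'.trans h.dsc')

theorem dsc_iff (h : AmpOn Λ A) : Dsc Λ β ↔ Dsc A β := ⟨h.dsc'.trans, h.1.trans⟩

theorem amp_iff (h : AmpOn Λ A) : AmpOn Λ β ↔ AmpOn A β := ⟨h.symm.trans, h.trans⟩

theorem nef (h : AmpOn Λ A) : Nef A := h.smp.nef

theorem car (h : AmpOn Λ A) : A ∈ Car K := h.smp.car

theorem big_iff (h : AmpOn Λ A) : Big Λ ↔ Big A := ⟨h.dsc'.big, h.1.big⟩

theorem add_smp (h : AmpOn Λ A) (hβ : Smp β) (d : Dsc Λ β) : AmpOn Λ (A + β) :=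
  of_dsc (h.1.add d) (h.dsc'.add_left hβ)

theorem add (h : AmpOn Λ A) (h' : AmpOn Λ A') : AmpOn Λ (A + A') := h.add_smp h'.smp h'.1

theorem smul (h : AmpOn Λ A) (hc : 0 < c) : AmpOn Λ (c • A) :=
  of_dsc (h.1.smul c) (h.dsc'.smul_left hc)

theorem smul_left (h : AmpOn Λ A) (hc : 0 < c) : AmpOn (c • Λ) A := (h.symm.smul hc).symm

theorem add_prn (h : AmpOn Λ A) (e : β ∈ Prn K) : AmpOn Λ (A + β) :=
  h.add_smp (.of_prn e) (.of_prn h.smp_left e)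

theorem congr (h : AmpOn Λ A) (e : A' - A ∈ Prn K) : AmpOn Λ A' := by simpa using h.add_prn e

theorem congr_left (h : AmpOn Λ A) (e : Λ' - Λ ∈ Prn K) : AmpOn Λ' A := (h.symm.congr e).symm

/-- the ample cone is open -/
theorem opn (h : AmpOn Λ A) (d : Dsc Λ β) :
    ∃ ε : ℝ, 0 < ε ∧ ∀ t : ℝ, |t| ≤ ε → AmpOn Λ (A + t • β) := by
  have k := h.smul one_half_pos
  obtain ⟨ε, h0, a⟩ := (k.dsc_iff.1 d).exists_abs
  refine ⟨ε, h0, fun t ht => ?_⟩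
  have := k.add_smp (a t ht) (k.1.add (d.smul t))
  rwa [← add_assoc, ← add_smul, add_halves, one_smul] at this

theorem exists_add (h : AmpOn Λ A) (d : Dsc Λ β) : ∃ ε : ℝ, 0 < ε ∧ AmpOn Λ (A + ε • β) :=
  let ⟨ε, a, b⟩ := h.opn d; ⟨ε, a, b ε (abs_of_pos a).le⟩

theorem exists_sub (h : AmpOn Λ A) (d : Dsc Λ β) : ∃ ε : ℝ, 0 < ε ∧ AmpOn Λ (A - ε • β) := by
  simpa [sub_eq_add_neg] using h.exists_add d.neg

/-- `β + c A` is ample for large `c` -/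
theorem exists_large (h : AmpOn Λ A) (d : Dsc Λ β) :
    ∃ c₀ : ℝ, 0 < c₀ ∧ ∀ c, c₀ ≤ c → AmpOn Λ (β + c • A) := by
  obtain ⟨c₀, h0, k⟩ := (h.dsc_iff.1 d).exists_add
  refine ⟨c₀ + 1, by linarith, fun c hc => ?_⟩
  have := h.add_smp (k (c - 1) (by linarith)) (d.add (h.1.smul _))
  rwa [sub_smul, one_smul, ← add_sub_assoc, add_sub_cancel] at this

end AmpOn

theorem ampOn_iff : AmpOn Λ A ↔ Dsc Λ A ∧ Dsc A Λ :=
  ⟨fun h => ⟨h.1, h.dsc'⟩, fun h => .of_dsc h.1 h.2⟩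

theorem Smp.ampOn_smul (h : Smp Λ) (hc : 0 < c) : AmpOn Λ (c • Λ) := (AmpOn.refl h).smul hc

theorem Smp.ampOn_congr (h : Smp Λ) (e : Λ' - Λ ∈ Prn K) : AmpOn Λ Λ' := (AmpOn.refl h).congr e

/-- every semiample class is equivalent to a system which contains `1` -/
theorem Smp.exists_ampOn (h : Smp Λ) : ∃ s : Finset K, 1 ∈ s ∧ AmpOn Λ (mx s) := by
  obtain ⟨s, ε, -, h0, a, b⟩ := h.exists_mx
  obtain ⟨u, f, -, hu, e⟩ := exists_one_mem s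
  exact ⟨u, hu, e ▸ AmpOn.add_prn ⟨.of_smp h (smp_mx s) h0 a, ε, h0, b⟩ (dv_mem_Prn f)⟩

theorem Dsc.exists_amp_sub (h : Dsc Λ β) : ∃ A A', AmpOn Λ A ∧ AmpOn Λ A' ∧ β = A - A' := by
  obtain ⟨c, h0, k⟩ := (AmpOn.refl h.smp).exists_large h
  exact ⟨_, _, k c le_rfl, h.smp.ampOn_smul h0, by simp⟩

/-- a nef class plus a class which is ample on a high model -/
theorem Nef.exists_mx (h : Nef β) : ∃ s, ∀ A, Dsc A (mx s) → Smp (β + A) := by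
  obtain ⟨s, hs⟩ := h
  refine ⟨s, fun A hA => ?_⟩
  obtain ⟨ε, h0, k⟩ := hA.exists_sub
  simpa using (hs ε h0).add k

/-! ### Picard groups, hulls -/

theorem Pic_eq (h : Smp Λ) : Pic Λ = (dscS h).map (Prn K).mkQ := by
  rw [Pic, ← Submodule.map_span]
  exact congrArg _ (Submodule.span_eq (dscS h))

theorem mk_mem_Pic (h : Smp Λ) : (Prn K).mkQ β ∈ Pic Λ ↔ Dsc Λ β := by
  rw [Pic_eq h]
  refine ⟨fun ⟨γ, a, b⟩ => Dsc.congr a ?_, fun k => ⟨β, k, rfl⟩⟩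
  exact (Submodule.Quotient.eq _).1 b.symm

theorem mem_Pic (h : Smp Λ) {x : BD K ⧸ Prn K} : x ∈ Pic Λ ↔ ∃ β, Dsc Λ β ∧ (Prn K).mkQ β = x := by
  rw [Pic_eq h]; rfl

theorem Dsc.Pic_le (h : Dsc Λ' Λ) : Pic Λ ≤ Pic Λ' :=
  Submodule.span_mono (image_mono fun _ k => h.trans k)

theorem AmpOn.Pic_eq (h : AmpOn Λ Λ') : Pic Λ = Pic Λ' := le_antisymm h.dsc'.Pic_le h.1.Pic_le

theorem AmpOn.rho_eq (h : AmpOn Λ Λ') : rho Λ = rho Λ' := by rw [rho, rho, h.Pic_eq]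

namespace Hull

variable {Z Z' β' : BD K}

theorem self (h : Dsc Λ β) : Hull n Λ β β := ⟨h, fun _ _ => rfl⟩

theorem add (h : Hull n Λ Z β) (h' : Hull n Λ Z' β') : Hull n Λ (Z + Z') (β + β') :=
  ⟨h.1.add h'.1, fun P hP => by simp [h.2 P hP, h'.2 P hP]⟩

theorem smul (h : Hull n Λ Z β) (c : ℝ) : Hull n Λ (c • Z) (c • β) :=
  ⟨h.1.smul c, fun P hP => by simp [h.2 P hP]⟩

theorem neg (h : Hull n Λ Z β) : Hull n Λ (-Z) (-β) :=
  ⟨h.1.neg, fun P hP => by simp [h.2 P hP]⟩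

theorem sub (h : Hull n Λ Z β) (h' : Hull n Λ Z' β') : Hull n Λ (Z - Z') (β - β') :=
  ⟨h.1.sub h'.1, fun P hP => by simp [h.2 P hP, h'.2 P hP]⟩

theorem congr (h : Hull n Λ Z β) (e : ∀ P, On n Λ P → Z P = Z' P) : Hull n Λ Z' β :=
  ⟨h.1, fun P hP => (h.2 P hP).trans (e P hP)⟩

theorem sum (h : Smp Λ) {ι : Type*} (T : Finset ι) {Z b : ι → BD K}
    (k : ∀ i ∈ T, Hull n Λ (Z i) (b i)) : Hull n Λ (∑ i ∈ T, Z i) (∑ i ∈ T, b i) :=
  ⟨Dsc.sum h T fun i hi => (k i hi).1, fun P hP => by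
    simp only [Finset.sum_apply]
    exact Finset.sum_congr rfl fun i hi => (k i hi).2 P hP⟩

end Hull

/-! ### centres -/

namespace CLe

theorem refl (Λ : BD K) (P : Pl K) : CLe Λ P P := fun _ _ h => h

theorem trans (h : CLe Λ P Q) (h' : CLe Λ Q R) : CLe Λ P R := fun G a b => h G a (h' G a b)

theorem zero (h : CLe Λ P Q) (r : Rep Λ G) (e : G P = 0) : G Q = 0 :=
  le_antisymm (not_lt.1 fun k => (h G r k).ne' e) (r.1 Q)

theorem congr (h : CLe Λ P Q) (e : Λ' - Λ ∈ Prn K) : CLe Λ' P Q :=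
  fun G a => h G (a.congr (by simpa using neg_mem e))

/-- pass to a lower model -/
theorem down (h : CLe Λ P Q) {ε : ℝ} (h0 : 0 < ε) (k : Smp (Λ - ε • Λ')) : CLe Λ' P Q := by
  intro G a b
  obtain ⟨G', a', b'⟩ := k.exists_rep (finite_singleton P)
  have r := (a.smul h0.le).add a'
  rw [add_sub_cancel] at r
  have := h _ r (add_pos_of_pos_of_nonneg (mul_pos h0 b) (a'.1 Q))
  simp only [Pi.add_apply, Pi.smul_apply, smul_eq_mul, b' P rfl, add_zero] at this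
  exact (mul_pos_iff_of_pos_left h0).1 this

theorem of_dsc (h : CLe Λ P Q) (d : Dsc Λ Λ') : CLe Λ' P Q :=
  let ⟨_, a, b⟩ := d.exists_sub; h.down a b

/-- effective Cartier divisors of `V Λ` -/
theorem pos (h : CLe Λ P Q) (d : Dsc Λ G) (h0 : 0 ≤ G) (k : 0 < G Q) : 0 < G P :=
  h.of_dsc d G (.refl h0) k

theorem meet (h : CLe Λ P Q) : Meet Λ P Q := ⟨P, refl _ _, h⟩

end CLe

theorem AmpOn.cle_iff (h : AmpOn Λ Λ') : CLe Λ P Q ↔ CLe Λ' P Q :=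
  ⟨fun k => k.of_dsc h.1, fun k => k.of_dsc h.dsc'⟩

theorem Meet.refl (Λ : BD K) (P : Pl K) : Meet Λ P P := (CLe.refl Λ P).meet

theorem Meet.symm (h : Meet Λ P Q) : Meet Λ Q P := let ⟨R, a, b⟩ := h; ⟨R, b, a⟩

theorem Meet.mono {P' Q' : Pl K} (h : Meet Λ P Q) (a : CLe Λ P P') (b : CLe Λ Q Q') :
    Meet Λ P' Q' := let ⟨R, x, y⟩ := h; ⟨R, x.trans a, y.trans b⟩

theorem Meet.of_dsc (h : Meet Λ P Q) (d : Dsc Λ Λ') : Meet Λ' P Q :=
  let ⟨R, a, b⟩ := h; ⟨R, a.of_dsc d, b.of_dsc d⟩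

theorem AmpOn.meet_iff (h : AmpOn Λ Λ') : Meet Λ P Q ↔ Meet Λ' P Q :=
  ⟨fun k => k.of_dsc h.1, fun k => k.of_dsc h.dsc'⟩

theorem not_cle (h : ¬ CLe Λ P Q) : ∃ G, Rep Λ G ∧ 0 < G Q ∧ G P = 0 := by
  simp only [CLe, not_forall, not_lt] at h
  obtain ⟨G, a, b, c⟩ := h
  exact ⟨G, a, b, le_antisymm c (a.1 P)⟩

/-- a member which misses `P` and contains the centres which do not contain that of `P` -/
theorem exists_rep_not_cle {T : Set (Pl K)} (hT : T.Finite) (hΛ : Smp Λ)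
    (h : ∀ Q ∈ T, ¬ CLe Λ P Q) : ∃ G, Rep Λ G ∧ G P = 0 ∧ ∀ Q ∈ T, 0 < G Q := by
  induction T, hT using Set.Finite.induction_on with
  | empty =>
    obtain ⟨G, a, b⟩ := hΛ.exists_rep (finite_singleton P)
    exact ⟨G, a, b P rfl, fun _ k => k.elim⟩
  | @insert Q T _ _ ih =>
    obtain ⟨G, a, b, c⟩ := ih fun R hR => h R (mem_insert_of_mem _ hR)
    obtain ⟨G', a', b', c'⟩ := not_cle (h Q (mem_insert _ _))
    have r := (a.add a').smul (c := 1 / 2) one_half_pos.le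
    rw [smul_add, ← add_smul, add_halves, one_smul] at r
    refine ⟨_, r, by simp [b, c'], ?_⟩
    rintro R (rfl | hR)
    · exact mul_pos one_half_pos (add_pos_of_nonneg_of_pos (a.1 _) b')
    · exact mul_pos one_half_pos (add_pos_of_pos_of_nonneg (c R hR) (a'.1 _))

end Vale.Agent.P287D
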