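import Vale.Agent.P287D.Va.Fld
import Vale.Agent.P287D.On.Div
import Vale.Agent.P287D.Gf.One
import Vale.Agent.P287D.Fs.Mod
import Vale.Agent.P287D.Ad.Sep

/-!
# P287D: the field of a semiample b-divisor
-/

set_option linter.unusedSectionVars false

open Set
open Vale.Agent.P297Z.Pl

noncomputable section

namespace Vale.Agent.P287D

variable {K K' : Type} [Field K] [Algebra ℂ K] [Field K'] [Algebra ℂ K'] {n : ℕ}
  {s : Finset K} {f g : K} {β γ Λ Λ' : BD K} {L L' : IntermediateField ℂ K} {φ : K →+* K'}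

/-- a transcendental function has a horizontal pole -/
theorem exists_pole (hK : FF K n) (hf : ¬ IsAlgebraic L f) : ∃ P : Pl K, Hor L P ∧ f ∉ P.ring := by
  have f0 : f ≠ 0 := fun e => hf (e ▸ isAlgebraic_zero)
  obtain ⟨P, a, b⟩ := On.div hK (B := Algebra.adjoin L {f⁻¹})
    (Subalgebra.fg_def.2 ⟨_, finite_singleton _, rfl⟩) (Algebra.subset_adjoin rfl)
    (inv_ne_zero f0) fun e => by
      rw [inv_inv, Algebra.adjoin_singleton_eq_range_aeval] at e
      obtain ⟨p, hp⟩ := e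
      refine hf (IsAlgebraic.inv_iff.1 ⟨Polynomial.X * p - 1, fun z => ?_, ?_⟩)
      · simpa using congrArg (Polynomial.coeff · 0) z
      · rw [map_sub, map_mul, Polynomial.aeval_X, map_one, show Polynomial.aeval f⁻¹ p = f from hp,
          inv_mul_cancel₀ f0, sub_self]
  refine ⟨P, fun c hc => a c (Subalgebra.algebraMap_mem _ (⟨c, hc⟩ : L)), fun e => ?_⟩
  have := ord_nonneg_of_mem _ e
  rw [ord_inv] at b
  omega

theorem Cld.mem_of_hor (hL : Cld L) (hK : FF K n) (h : ∀ P : Pl K, Hor L P → f ∈ P.ring) :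
    f ∈ L :=
  hL f (by_contra fun e => let ⟨P, a, b⟩ := exists_pole hK e; b (h P a))

theorem Cld.mem_of_ord (hL : Cld L) (hK : FF K n) (h : ∀ P : Pl K, Hor L P → 0 ≤ P.ord f) :
    f ∈ L := by
  by_cases f0 : f = 0
  · exact f0 ▸ zero_mem L
  · exact hL.mem_of_hor hK fun P a => (ord_nonneg_iff _ f0).1 (h P a)

/-- a function without poles is constant -/
theorem const_of_ring (hK : FF K n) (h : ∀ P : Pl K, f ∈ P.ring) : ∃ c, algebraMap ℂ K c = f :=
  IntermediateField.mem_bot.1 (cld_bot.mem_of_hor hK fun P _ => h P)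

theorem const_of_sec (hK : FF K n) (h : Sec 0 f) : ∃ c, algebraMap ℂ K c = f :=
  const_of_ring hK fun P => pld_eq_zero.1 (le_antisymm (pld_le le_rfl h P) (pld_nonneg f P))

theorem Hor.ord {P : Pl K} (h : Hor L P) (hf : f ∈ L) : P.ord f = 0 :=
  ord_unit _ (h f hf) (h _ (inv_mem hf))

theorem Hor.trv {P : Pl K} (h : Hor L P) : Trv (inc L) P := fun a => h a a.2

theorem Ok.pb_pld (h : Ok φ) (f : K) : pb φ (pld f) = pld (φ f) := by
  classical
  rw [← mx_pld, ← mx_pld, h.pb_mx, Pb.im_eq, Finset.image_insert, Finset.image_singleton, map_one]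

theorem Ok.inF (h : Ok φ) (hf : InF β f) : InF (pb φ β) (φ f) :=
  let ⟨ε, a, b⟩ := hf
  ⟨ε, a, by simpa only [pb_sub, pb_smul, h.pb_pld] using h.eff b⟩

theorem Ok.mem_fld (h : Ok φ) (hβ : Eff β) (hf : f ∈ fld β) : φ f ∈ fld (pb φ β) :=
  (h.inF ((P287D.mem_fld hβ).1 hf)).mem

theorem Ext.hor_of (h : Ext L φ) {P : Pl K'} {Q : Pl K} (e : Lies φ P Q) : Hor L Q := fun a ha => by
  obtain ⟨c, hc⟩ := h.cst a ha
  exact (e a).2 (hc ▸ P.con c)

theorem Ext.mem_of_const (h : Ext L φ) {c : ℂ} (e : algebraMap ℂ K' c = φ f) : f ∈ L := by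
  by_contra hf
  have a : LinearIndependent L ![f, 1] := LinearIndependent.pair_iff.2 fun x y z => by
    have x0 : x = 0 := by_contra fun x0 => hf (by
      have : f = ((-(y / x) : L) : K) := by
        have x1 : (x : K) ≠ 0 := fun w => x0 (Subtype.ext w)
        rw [Algebra.smul_def, Algebra.smul_def, mul_one] at z
        push_cast
        field_simp
        exact eq_neg_of_add_eq_zero_left ((mul_comm f x).symm ▸ z)
      exact this ▸ Subtype.prop _)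
    rw [x0, zero_smul, zero_add, Algebra.smul_def, mul_one] at z
    exact ⟨x0, Subtype.ext z⟩
  have b := h.dis 2 _ a
  have b' : LinearIndependent ℂ ![φ f, 1] := by
    rwa [show (fun i => φ (![f, 1] i)) = ![φ f, 1] from funext (by simp [Fin.forall_fin_two])] at b
  have := (LinearIndependent.pair_iff.1 b' 1 (-c) (by
    rw [one_smul, neg_smul, ← Algebra.algebraMap_eq_smul_one, e, add_neg_cancel])).1
  exact one_ne_zero this

/-- **KEY**: a class which is not positive on the generic fibre over `L` sees only `L` -/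
theorem fld_le_of_hor (hK : FF K n) (hL : Cld L) (hγ : γ ∈ Prn K)
    (h : ∀ Q, Hor L Q → β Q ≤ γ Q) : fld β ≤ L := by
  refine fld_le fun f ⟨ε, e0, e⟩ => ?_
  obtain ⟨K', _, _, φ, hφ⟩ := gen_ex n K hK L hL
  obtain ⟨m, hm, hF⟩ := Gm.ff_sub hK L
  obtain ⟨r, rfl⟩ := Nat.exists_eq_add_of_le' hm
  have hK' : FF K' r := hφ.toExt.ff hF hK
  have ok : Ok φ := hφ.toExt.ok hK'
  have a : pb φ (β - γ) ≤ 0 := fun P => by
    by_cases c : ∃ Q, Lies φ P Q
    · obtain ⟨Q, c⟩ := c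
      rw [c.pb]
      exact mul_nonpos_of_nonneg_of_nonpos (Int.cast_nonneg_iff.2 c.e_pos.le)
        (sub_nonpos.2 (h Q (hφ.toExt.hor_of c)))
    · exact (pb_of_not c _).le
  have b : Eff (-(ε • pld (φ f))) := by
    have := ok.eff (e.add_prn (neg_mem hγ))
    rw [show β - ε • pld f + -γ = β - γ - ε • pld f by abel, pb_sub, pb_smul, ok.pb_pld] at this
    exact this.mono (by simpa using a)
  have p0 := smul_nonneg e0.le (pld_nonneg (φ f))
  have c := Fs.prn_zero hK' (Fs.eff_anti hK' (.of_nonneg p0) b) p0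
  obtain ⟨c, hc⟩ := const_of_ring hK' (f := φ f) fun P =>
    pld_eq_zero.1 (congrFun ((smul_eq_zero.1 c).resolve_left e0.ne') P)
  exact hφ.toExt.mem_of_const hc

theorem fld_pb_le (hK : FF K n) (hL : Cld L) (β₀ : BD L) : fld (pb (inc L) β₀) ≤ L :=
  fld_le_of_hor hK hL (zero_mem _) fun _ h => (h.trv.pb _).le

theorem fld_prn (hK : FF K n) (h : β ∈ Prn K) : fld β = ⊥ :=
  le_bot_iff.1 (fld_le_of_hor hK cld_bot h fun _ _ => le_rfl)

theorem fld_mx_le (hK : FF K n) (hL : Cld L) (h : rts s ≤ L) : fld (mx s) ≤ L := by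
  by_cases hs : Nz s
  swap
  · rw [mx_of_not hs, fld_prn hK (zero_mem _)]
    exact bot_le
  obtain ⟨g, hg, g0⟩ := id hs
  refine fld_le_of_hor hK hL (neg_mem (dv_mem_Prn g)) fun Q hQ => ?_
  obtain ⟨f, hf, f0, e⟩ := Q.exists_mz hs
  have := hQ.ord (h (div_mem_rts hf hg))
  rw [ord_div _ f0 g0, sub_eq_zero] at this
  rw [mx_apply, e, this, Int.cast_neg]
  exact le_rfl

/-- the field of a system is the algebraic closure of the field of its ratios -/
theorem mem_fld_mx (hK : FF K n) : f ∈ fld (mx s) ↔ IsAlgebraic (rts s) f :=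
  let ⟨_, a, b, c⟩ := Gm.exists_cld (rts s)
  ⟨fun h => c f (fld_mx_le hK b a h), mem_fld_of_alg⟩

theorem big_mx_iff (hK : FF K n) : Big (mx s) ↔ ∀ f : K, IsAlgebraic (rts s) f :=
  ⟨fun h _ => (mem_fld_mx hK).1 (h.fld_eq ▸ trivial), big_mx⟩

/-- **BALG** -/
theorem balg : Loq.BALG := fun _ _ _ _ hK _ => (big_mx_iff hK).1

/-! ### the dimension -/

theorem trdeg_fld (hK : FF K n) (Λ : BD K) : Algebra.trdeg ℂ (fld Λ) = dim Λ := by
  obtain ⟨m, -, h⟩ := Gm.ff_sub hK (fld Λ)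
  rw [dim, h.trdeg, Cardinal.toNat_natCast]

/-- **FLD.ff** -/
theorem ff_fld (hK : FF K n) (Λ : BD K) : FF (fld Λ) (dim Λ) := by
  obtain ⟨m, -, h⟩ := Gm.ff_sub hK (fld Λ)
  rwa [dim, h.trdeg, Cardinal.toNat_natCast]

theorem dim_le (hK : FF K n) (Λ : BD K) : dim Λ ≤ n := by
  obtain ⟨m, a, h⟩ := Gm.ff_sub hK (fld Λ)
  rwa [dim, h.trdeg, Cardinal.toNat_natCast]

theorem trdeg_mono (h : L ≤ L') : Algebra.trdeg ℂ L ≤ Algebra.trdeg ℂ L' :=
  trdeg_le_of_injective (IntermediateField.inclusion h) (IntermediateField.inclusion_injective h)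

theorem dim_mono (hK : FF K n) (h : fld Λ ≤ fld Λ') : dim Λ ≤ dim Λ' := by
  have := trdeg_mono h
  rw [trdeg_fld hK, trdeg_fld hK] at this
  exact_mod_cast this

theorem Dsc.dim_le (h : Dsc Λ Λ') (hK : FF K n) : dim Λ' ≤ dim Λ := dim_mono hK h.fld_le

theorem alg_of_trdeg_le (hK : FF K n) (h : L ≤ L')
    (e : Algebra.trdeg ℂ L' ≤ Algebra.trdeg ℂ L) (hf : f ∈ L') : IsAlgebraic L f := by
  let := (IntermediateField.inclusion h).toRingHom.toAlgebra
  have : IsScalarTower ℂ L L' := .of_algebraMap_eq fun _ => rfl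
  have : IsScalarTower L L' K := .of_algebraMap_eq fun _ => rfl
  obtain ⟨m, -, k⟩ := Gm.ff_sub hK L'
  exact ((On.alg_of_trdeg (F := L) (Pb.ff_fin k) e).1 ⟨f, hf⟩).algebraMap

theorem Cld.eq_of_trdeg (hL : Cld L) (hK : FF K n) (h : L ≤ L')
    (e : Algebra.trdeg ℂ L' ≤ Algebra.trdeg ℂ L) : L = L' :=
  le_antisymm h fun f hf => hL f (alg_of_trdeg_le hK h e hf)

theorem fld_eq_of_dim (hK : FF K n) (h : fld Λ ≤ fld Λ') (e : dim Λ' ≤ dim Λ) : fld Λ = fld Λ' :=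
  (cld_fld Λ).eq_of_trdeg hK h (by rw [trdeg_fld hK, trdeg_fld hK]; exact_mod_cast e)

theorem fld_eq_top_iff (hK : FF K n) : fld Λ = ⊤ ↔ dim Λ = n := by
  have t : Algebra.trdeg ℂ (⊤ : IntermediateField ℂ K) = n :=
    (IntermediateField.topEquiv (F := ℂ) (E := K)).trdeg_eq.trans hK.trdeg
  refine ⟨fun h => by rw [dim, h, t, Cardinal.toNat_natCast], fun h =>
    (cld_fld Λ).eq_of_trdeg hK le_top (by rw [t, trdeg_fld hK, h])⟩

theorem big_iff_dim (hK : FF K n) (h : Eff Λ) : Big Λ ↔ dim Λ = n :=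
  (big_iff_fld h).trans (fld_eq_top_iff hK)

theorem fld_eq_bot_iff (hK : FF K n) : fld Λ = ⊥ ↔ dim Λ = 0 := by
  have t : Algebra.trdeg ℂ (⊥ : IntermediateField ℂ K) = 0 := trdeg_eq_zero
  refine ⟨fun h => by rw [dim, h, t, map_zero], fun h =>
    (cld_bot.eq_of_trdeg hK bot_le (by rw [t, trdeg_fld hK, h, Nat.cast_zero])).symm⟩

theorem dim_mx (hK : FF K n) (s : Finset K) : Algebra.trdeg ℂ (rts s) = dim (mx s) := by
  rw [← trdeg_fld hK]
  let := (IntermediateField.inclusion (rts_le_fld s)).toRingHom.toAlgebra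
  have : IsScalarTower ℂ (rts s) (fld (mx s)) := .of_algebraMap_eq fun _ => rfl
  have : IsScalarTower (rts s) (fld (mx s)) K := .of_algebraMap_eq fun _ => rfl
  have : Algebra.IsAlgebraic (rts s) (fld (mx s)) := ⟨fun a =>
    (isAlgebraic_algebraMap_iff (A := K) Subtype.val_injective).1 ((mem_fld_mx hK).1 a.2)⟩
  rw [← trdeg_add_eq ℂ (rts s) (A := fld (mx s)), trdeg_eq_zero (R := rts s), add_zero]

/-! ### descent to the field -/

theorem smp_down (hK : FF K n) (hβ : Smp β) (h : fld β ≤ L) :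
    ∃ β₀ : BD L, Smp β₀ ∧ β - pb (inc L) β₀ ∈ Prn K := by
  classical
  have ok := hK.ok_sub L
  revert h
  refine hβ.ind (p := fun β => fld β ≤ L → ∃ β₀ : BD L, Smp β₀ ∧ β - pb (inc L) β₀ ∈ Prn K)
    (fun s hs h => ?_) (fun a b ha hb ia ib h => ?_) fun c a hc _ ia h => ?_
  · obtain ⟨g, hg, g0⟩ := id hs
    have m : ∀ f : s, f * g⁻¹ ∈ L := fun f =>
      h (div_eq_mul_inv (f : K) g ▸ rts_le_fld s (div_mem_rts f.2 hg))
    refine ⟨mx (Finset.univ.image fun f : s => ⟨_, m f⟩), smp_mx _, ?_⟩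
    have e : im (inc L) (Finset.univ.image fun f : s => ⟨_, m f⟩) = s.image (· * g⁻¹) := by
      ext x
      simp only [Pb.mem_im, Finset.mem_image, Finset.mem_univ, true_and]
      exact ⟨fun ⟨_, ⟨a, e⟩, k⟩ => ⟨a, a.2, by rw [← k, ← e]; rfl⟩,
        fun ⟨a, e, k⟩ => ⟨_, ⟨⟨a, e⟩, rfl⟩, k⟩⟩
    rw [ok.pb_mx, e, mx_image_mul hs (inv_ne_zero g0), sub_sub_cancel]
    exact dv_mem_Prn _
  · obtain ⟨a₀, a1, a2⟩ := ia ((fld_le_add hb.eff).trans h)
    obtain ⟨b₀, b1, b2⟩ := ib ((fld_le_add ha.eff).trans (add_comm a b ▸ h))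
    exact ⟨a₀ + b₀, a1.add b1, by
      rw [pb_add, add_sub_add_comm]
      exact add_mem a2 b2⟩
  · rcases hc.eq_or_lt with rfl | hc'
    · exact ⟨0, .zero, by simp [pb_zero]⟩
    obtain ⟨a₀, a1, a2⟩ := ia (fld_smul hc' a ▸ h)
    exact ⟨c • a₀, a1.smul hc, by
      rw [pb_smul, ← smul_sub]
      exact Submodule.smul_mem _ _ a2⟩

theorem rts_im (φ : K →ₐ[ℂ] K') (s : Finset K) : rts (im (φ : K →+* K') s) = (rts s).map φ := by
  rw [rts, rts, IntermediateField.adjoin_map]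
  congr 1
  ext x
  simp only [Pb.mem_im, mem_ofPred, mem_image]
  exact ⟨fun ⟨_, ⟨a, ha, e⟩, _, ⟨b, hb, e'⟩, k⟩ =>
      ⟨a / b, ⟨a, ha, b, hb, rfl⟩, by rw [k, ← e, ← e', map_div₀]; rfl⟩,
    fun ⟨_, ⟨a, ha, b, hb, e⟩, k⟩ =>
      ⟨_, ⟨a, ha, rfl⟩, _, ⟨b, hb, rfl⟩, by rw [← k, e, map_div₀]; rfl⟩⟩

theorem alg_map_iff (φ : K →ₐ[ℂ] K') : IsAlgebraic (L.map φ) (φ f) ↔ IsAlgebraic L f :=
  ⟨fun h => h.of_ringHom_of_comp_eq (L.equivMap φ) φ (L.equivMap φ).surjective φ.injective rfl,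
    fun h => h.ringHom_of_comp_eq (L.equivMap φ) φ (L.equivMap φ).injective rfl⟩

/-- the field of a pull back -/
theorem mem_fld_pb (hK' : FF K' n) (φ : K →ₐ[ℂ] K') (h : Smp Λ) {x : K'} :
    x ∈ fld (pb (φ : K →+* K') Λ) ↔ IsAlgebraic ((fld Λ).map φ) x := by
  obtain ⟨s, -, a⟩ := h.exists_ampOn
  have ok := hK'.ok φ
  refine ⟨fun hx => ?_, fun hx => (cld_fld _).of_le ?_ hx⟩
  · rw [← (ok.ampOn a).fld_eq, ok.pb_mx, mem_fld_mx hK', rts_im] at hx
    have e := IntermediateField.map_mono φ (a.fld_eq ▸ rts_le_fld s)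
    exact hx.ringHom_of_comp_eq (IntermediateField.inclusion e).toRingHom (RingHom.id K')
      (IntermediateField.inclusion_injective _) rfl
  · rintro _ ⟨y, hy, rfl⟩
    exact ok.mem_fld h.eff hy

theorem map_mem_fld_pb (hK' : FF K' n) (φ : K →ₐ[ℂ] K') (h : Smp Λ) :
    φ f ∈ fld (pb (φ : K →+* K') Λ) ↔ f ∈ fld Λ := by
  rw [mem_fld_pb hK' φ h, alg_map_iff]
  exact ⟨cld_fld Λ f, fun a => isAlgebraic_algebraMap (⟨f, a⟩ : fld Λ)⟩

theorem big_of_fld_pb (hK : FF K n) {Λ₀ : BD L} (h : Smp Λ₀) (e : L ≤ fld (pb (inc L) Λ₀)) :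
    Big Λ₀ :=
  (big_iff_fld h.eff).2 (eq_top_iff.2 fun f _ => (map_mem_fld_pb hK L.val h).1 (e f.2))

/-- **FLD.down** -/
theorem fld_down (hK : FF K n) (h : Smp Λ) :
    ∃ Λ₀ : BD (fld Λ), Smp Λ₀ ∧ Big Λ₀ ∧ Λ - pb (inc _) Λ₀ ∈ Prn K :=
  let ⟨Λ₀, a, b⟩ := smp_down hK h le_rfl
  ⟨Λ₀, a, big_of_fld_pb hK a (fld_congr b).le, b⟩

/-- **FLD.des**, the field -/
theorem fld_pb (hK : FF K n) (hL : Cld L) {Λ₀ : BD L} (h : Big Λ₀) : fld (pb (inc L) Λ₀) = L :=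
  le_antisymm (fld_pb_le hK hL _) fun f hf =>
    (hK.ok_sub L).mem_fld (f := ⟨f, hf⟩) h.eff (h.fld_eq ▸ trivial)

end Vale.Agent.P287D
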