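import Vale.Agent.P287D.Va.Dsc

/-!
# P287D: the field of a b-divisor (formal part)
-/

set_option linter.unusedSectionVars false

open Set
open Vale.Agent.P297Z.Pl

noncomputable section

namespace Vale.Agent.P287D

variable {K : Type} [Field K] [Algebra ℂ K] {s u : Finset K} {f g : K} {β γ Λ Λ' A : BD K}
  {c : ℝ}

/-- the divisor of poles -/
def pld (f : K) : BD K := 0 ⊔ -dv f

theorem mx_pld [DecidableEq K] (f : K) : mx {1, f} = pld f := mx_one_pair f

theorem pld_apply (f : K) (P : Pl K) : pld f P = max 0 (-(P.ord f : ℝ)) := rfl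

theorem pld_nonneg (f : K) : 0 ≤ pld f := le_sup_left

theorem smp_pld (f : K) : Smp (pld f) := by
  classical
  exact mx_pld f ▸ smp_mx _

theorem pld_carZ (f : K) : pld f ∈ CarZ K := by
  classical
  exact mx_pld f ▸ AddSubgroup.subset_closure ⟨_, rfl⟩

theorem pld_car (f : K) : pld f ∈ Car K := (smp_pld f).car

theorem sec_pld (f : K) : Sec (pld f) f :=
  Or.inr (neg_le_iff_add_nonneg'.1 (le_sup_right (a := (0 : BD K))))

theorem pld_le (h0 : 0 ≤ β) (h : Sec β f) : pld f ≤ β := by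
  refine sup_le h0 ?_
  rcases h with rfl | h
  · simpa using h0
  · exact neg_le_iff_add_nonneg'.2 h

theorem pld_add (f g : K) : pld (f + g) ≤ pld f + pld g :=
  pld_le (add_nonneg (pld_nonneg f) (pld_nonneg g))
    (((sec_pld f).mono (le_add_of_nonneg_right (pld_nonneg g))).add
      ((sec_pld g).mono (le_add_of_nonneg_left (pld_nonneg f))))

theorem pld_mul (f g : K) : pld (f * g) ≤ pld f + pld g :=
  pld_le (add_nonneg (pld_nonneg f) (pld_nonneg g)) ((sec_pld f).mul (sec_pld g))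

theorem pld_neg (f : K) : pld (-f) = pld f := by rw [pld, dv_neg, pld]

theorem pld_const (a : ℂ) : pld (algebraMap ℂ K a) = 0 := by
  rw [pld, dv_const, neg_zero, sup_idem]

theorem pld_inv (f : K) : pld f⁻¹ = pld f + dv f := by
  classical
  rw [dv_eq_sub f, mx_pld, mx_pld, add_sub_cancel]

theorem pld_eq_zero {P : Pl K} : pld f P = 0 ↔ f ∈ P.ring := by
  by_cases h : f = 0
  · simp [h, pld_apply]
  rw [pld_apply, max_eq_left_iff, neg_nonpos, ← ord_nonneg_iff _ h]
  exact Int.cast_nonneg_iff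

theorem pld_pos {P : Pl K} : 0 < pld f P ↔ f ∉ P.ring := by
  rw [← pld_eq_zero]
  exact ⟨fun h => h.ne', fun h => lt_of_le_of_ne (pld_nonneg f P) (Ne.symm h)⟩

theorem mx_le_sum (s : Finset K) : mx s ≤ ∑ f ∈ s, pld f := by
  by_cases h : Nz s
  · exact mx_le h fun f hf => (sec_pld f).mono
      (Finset.single_le_sum (fun i _ => pld_nonneg i) hf)
  · exact mx_of_not h ▸ Finset.sum_nonneg fun i _ => pld_nonneg i

theorem pld_div_le (hf : Sec β f) (hg : Sec β g) (g0 : g ≠ 0) : pld (f / g) ≤ β + dv g :=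
  pld_le (add_comm β _ ▸ hg.resolve_left g0)
    ((sec_add_dv g0).2 (by rwa [div_mul_cancel₀ _ g0]))

/-- the poles of an integral element -/
theorem pld_le_of_monic {p : Polynomial K} (hp : p.Monic) (hf : p.eval f = 0) (h0 : 0 ≤ β)
    (h : ∀ i, Sec β (p.coeff i)) : pld f ≤ β := by
  refine pld_le h0 (sec_iff.2 fun P => or_iff_not_imp_left.2 fun f0 => not_lt.1 fun hl => ?_)
  have b0 : 0 ≤ β P := h0 P
  have a : f ^ p.natDegree ∈ P.sub (β P - ((p.natDegree : ℝ) - 1) * P.ord f) := by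
    rw [hp.as_sum, Polynomial.eval_add, Polynomial.eval_pow, Polynomial.eval_X,
      Polynomial.eval_finsetSum, add_eq_zero_iff_eq_neg] at hf
    rw [hf]
    refine neg_mem (Submodule.sum_mem _ fun i hi => ?_)
    rw [Polynomial.eval_mul, Polynomial.eval_C, Polynomial.eval_pow, Polynomial.eval_X]
    refine or_iff_not_imp_left.2 fun e => ?_
    have c0 := left_ne_zero_of_mul e
    have k := (sec_iff.1 (h i) P).resolve_left c0
    have l : (i : ℝ) + 1 ≤ p.natDegree := by exact_mod_cast Finset.mem_range.1 hi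
    rw [ord_mul _ c0 (pow_ne_zero _ f0), ord_pow]
    push_cast
    nlinarith
  have b := a.resolve_left (pow_ne_zero _ f0)
  rw [ord_pow] at b
  push_cast at b
  linarith

/-- the functions on `V Λ` -/
def InF (Λ : BD K) (f : K) : Prop := ∃ ε : ℝ, 0 < ε ∧ Eff (Λ - ε • pld f)

theorem fld_eq (Λ : BD K) : fld Λ = IntermediateField.adjoin ℂ {f | InF Λ f} := by
  simp only [fld, InF, mx_pld]

namespace InF

theorem mem (h : InF Λ f) : f ∈ fld Λ := fld_eq Λ ▸ IntermediateField.subset_adjoin _ _ h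

theorem eff (h : InF Λ f) : Eff Λ :=
  let ⟨_, a, b⟩ := h
  b.mono (sub_le_self _ (smul_nonneg a.le (pld_nonneg f)))

theorem of_sub (h : InF Λ' f) (hc : 0 < c) (e : Eff (Λ - c • Λ')) : InF Λ f := by
  obtain ⟨ε, a, b⟩ := h
  refine ⟨c * ε, mul_pos hc a, ?_⟩
  have := e.add (b.smul hc.le)
  rwa [smul_sub, sub_add_sub_cancel, smul_smul] at this

end InF

theorem eff_sub_two (h : ∃ ε : ℝ, 0 < ε ∧ Eff (Λ - ε • β)) (h' : ∃ ε : ℝ, 0 < ε ∧ Eff (Λ - ε • γ))
    (b : 0 ≤ β) (b' : 0 ≤ γ) : ∃ ε : ℝ, 0 < ε ∧ Eff (Λ - ε • (β + γ)) := by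
  obtain ⟨ε, a, e⟩ := h
  obtain ⟨ε', a', e'⟩ := h'
  refine ⟨min ε ε' / 2, half_pos (lt_min a a'), ((e.add e').smul (c := 1 / 2)
    (by norm_num)).mono fun P => ?_⟩
  have k := mul_le_mul_of_nonneg_right (min_le_left ε ε') (b P)
  have k' := mul_le_mul_of_nonneg_right (min_le_right ε ε') (b' P)
  simp only [Pi.add_apply, Pi.sub_apply, Pi.smul_apply, smul_eq_mul]
  linarith

theorem eff_sub_sum {ι : Type*} (T : Finset ι) {b : ι → BD K} (hΛ : Eff Λ)
    (h : ∀ i ∈ T, ∃ ε : ℝ, 0 < ε ∧ Eff (Λ - ε • b i)) (h0 : ∀ i ∈ T, 0 ≤ b i) :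
    ∃ ε : ℝ, 0 < ε ∧ Eff (Λ - ε • ∑ i ∈ T, b i) := by
  classical
  induction T using Finset.induction_on with
  | empty => exact ⟨1, one_pos, by simpa using hΛ⟩
  | insert a T ha ih =>
    rw [Finset.sum_insert ha]
    exact eff_sub_two (h a (Finset.mem_insert_self _ _))
      (ih (fun i hi => h i (Finset.mem_insert_of_mem hi))
        fun i hi => h0 i (Finset.mem_insert_of_mem hi)) (h0 a (Finset.mem_insert_self _ _))
      (Finset.sum_nonneg fun i hi => h0 i (Finset.mem_insert_of_mem hi))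

theorem InF.of_le (h : ∃ ε : ℝ, 0 < ε ∧ Eff (Λ - ε • β)) (e : pld f ≤ β) : InF Λ f :=
  let ⟨ε, a, b⟩ := h
  ⟨ε, a, b.mono (sub_le_sub_left (smul_le_smul_of_nonneg_left e a.le) _)⟩

/-- the functions on `V Λ` form a field -/
def fldE (h : Eff Λ) : IntermediateField ℂ K where
  carrier := {f | InF Λ f}
  mul_mem' a b := .of_le (eff_sub_two a b (pld_nonneg _) (pld_nonneg _)) (pld_mul _ _)
  add_mem' a b := .of_le (eff_sub_two a b (pld_nonneg _) (pld_nonneg _)) (pld_add _ _)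
  algebraMap_mem' a := ⟨1, one_pos, by simpa [pld_const] using h⟩
  inv_mem' f := fun ⟨ε, a, b⟩ => ⟨ε, a, b.congr (by
    rw [pld_inv, smul_add, sub_sub_sub_cancel_left, sub_add_cancel_left]
    exact neg_mem (Submodule.smul_mem _ _ (dv_mem_Prn f)))⟩

theorem mem_fld (h : Eff Λ) : f ∈ fld Λ ↔ InF Λ f :=
  ⟨fun a => (IntermediateField.adjoin_le_iff (T := fldE h)).2 subset_rfl (fld_eq Λ ▸ a),
    InF.mem⟩

theorem fld_of_not (h : ¬ Eff Λ) : fld Λ = ⊥ := by
  rw [fld_eq, eq_empty_of_forall_notMem (s := {f | InF Λ f}) fun f hf => h hf.eff,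
    IntermediateField.adjoin_empty]

theorem fld_le {L : IntermediateField ℂ K} (h : ∀ f, InF Λ f → f ∈ L) : fld Λ ≤ L :=
  fld_eq Λ ▸ IntermediateField.adjoin_le_iff.2 h

theorem fld_le_of_eff (hc : 0 < c) (e : Eff (Λ - c • Λ')) : fld Λ' ≤ fld Λ :=
  fld_le fun _ h => (h.of_sub hc e).mem

theorem fld_mono (e : Λ' ≤ Λ) : fld Λ' ≤ fld Λ :=
  fld_le_of_eff one_pos (.of_nonneg (by simpa using e))

theorem fld_le_add (h : Eff β) : fld Λ ≤ fld (Λ + β) := fld_le_of_eff one_pos (by simpa using h)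

theorem fld_congr (e : Λ' - Λ ∈ Prn K) : fld Λ' = fld Λ :=
  le_antisymm (fld_le_of_eff one_pos (.of_prn (by simpa using neg_mem e)))
    (fld_le_of_eff one_pos (.of_prn (by simpa using e)))

theorem fld_smul (hc : 0 < c) (Λ : BD K) : fld (c • Λ) = fld Λ :=
  le_antisymm (fld_le_of_eff (inv_pos.2 hc) (by simpa [smul_smul, hc.ne'] using Eff.zero))
    (fld_le_of_eff hc (by simpa using Eff.zero))

/-- **FLD.le** -/
theorem Dsc.fld_le (h : Dsc Λ Λ') : fld Λ' ≤ fld Λ :=
  let ⟨_, a, _, b⟩ := h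
  fld_le_of_eff a b.eff

theorem AmpOn.fld_eq (h : AmpOn Λ A) : fld A = fld Λ := le_antisymm h.1.fld_le h.dsc'.fld_le

theorem AmpOn.dim_eq (h : AmpOn Λ A) : dim A = dim Λ := by rw [dim, h.fld_eq, dim]

theorem dim_congr (e : Λ' - Λ ∈ Prn K) : dim Λ' = dim Λ := by rw [dim, fld_congr e, dim]

theorem dim_smul (hc : 0 < c) (Λ : BD K) : dim (c • Λ) = dim Λ := by rw [dim, fld_smul hc, dim]

theorem cld_bot : Cld (⊥ : IntermediateField ℂ K) := fun f hf => by
  have a : IsAlgebraic ℂ f := hf.restrictScalars ℂ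
  exact minpoly.mem_range_of_degree_eq_one ℂ f
    (IsAlgClosed.degree_eq_one_of_irreducible ℂ (minpoly.irreducible a.isIntegral))

/-- **FLD.cld** -/
theorem cld_fld (Λ : BD K) : Cld (fld Λ) := by
  by_cases h : Eff Λ
  swap
  · exact fld_of_not h ▸ cld_bot
  intro f hf
  obtain ⟨p, hp, e⟩ := hf.isIntegral
  have m : ∀ i, InF Λ (p.coeff i) := fun i => (mem_fld h).1 (p.coeff i).2
  refine (InF.of_le (eff_sub_sum p.support h (fun i _ => m i) fun i _ => pld_nonneg _)
    (pld_le_of_monic (hp.map (algebraMap _ K)) (by rwa [Polynomial.eval_map])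
      (Finset.sum_nonneg fun i _ => pld_nonneg _) fun i => ?_)).mem
  rw [Polynomial.coeff_map]
  by_cases hi : i ∈ p.support
  · exact (sec_pld _).mono (Finset.single_le_sum (f := fun i => pld (p.coeff i : K))
      (fun i _ => pld_nonneg _) hi)
  · rw [Polynomial.notMem_support_iff.1 hi, map_zero]
    exact .zero _

theorem Big.fld_eq (h : Big Λ) : fld Λ = ⊤ :=
  eq_top_iff.2 fun f _ => InF.mem (h.exists_eff (pld_car f))

/-- **FLD.top** -/
theorem big_iff_fld (h : Eff Λ) : Big Λ ↔ fld Λ = ⊤ := by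
  refine ⟨Big.fld_eq, fun e s => ?_⟩
  obtain ⟨ε, a, b⟩ := eff_sub_sum s h (fun f _ => (mem_fld h (f := f)).1 (e ▸ trivial))
    fun f _ => pld_nonneg f
  exact ⟨ε, a, b.mono (sub_le_sub_left (smul_le_smul_of_nonneg_left (mx_le_sum s) a.le) _)⟩

/-- a system of the field of `Λ` is dominated by `Λ` -/
theorem eff_sub_mx (h : Eff Λ) (hs : ∀ f ∈ s, f ∈ fld Λ) : ∃ ε : ℝ, 0 < ε ∧ Eff (Λ - ε • mx s) := by
  obtain ⟨ε, a, b⟩ := eff_sub_sum s h (fun f hf => (mem_fld h).1 (hs f hf)) fun f _ => pld_nonneg f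
  exact ⟨ε, a, b.mono (sub_le_sub_left (smul_le_smul_of_nonneg_left (mx_le_sum s) a.le) _)⟩

theorem Sec.div_mem (hf : Sec β f) (hg : Sec β g) : f / g ∈ fld β := by
  by_cases g0 : g = 0
  · rw [g0, div_zero]
    exact zero_mem _
  refine InF.mem ⟨1, one_pos, (Eff.of_nonneg (sub_nonneg.2 (pld_div_le hf hg g0))).congr ?_⟩
  rw [one_smul, sub_sub_sub_cancel_right, sub_add_cancel_left]
  exact neg_mem (dv_mem_Prn g)

/-- the field of the ratios of a system -/
def rts (s : Finset K) : IntermediateField ℂ K :=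
  IntermediateField.adjoin ℂ {a : K | ∃ f ∈ s, ∃ g ∈ s, a = f / g}

theorem div_mem_rts (hf : f ∈ s) (hg : g ∈ s) : f / g ∈ rts s :=
  IntermediateField.subset_adjoin _ _ ⟨f, hf, g, hg, rfl⟩

theorem rts_le_iff {L : IntermediateField ℂ K} : rts s ≤ L ↔ ∀ f ∈ s, ∀ g ∈ s, f / g ∈ L :=
  ⟨fun h _ hf _ hg => h (div_mem_rts hf hg),
    fun h => IntermediateField.adjoin_le_iff.2 fun _ ⟨f, hf, g, hg, e⟩ => e ▸ h f hf g hg⟩

theorem rts_le_fld (s : Finset K) : rts s ≤ fld (mx s) :=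
  rts_le_iff.2 fun _ hf _ hg => (sec_of_mem hf).div_mem (sec_of_mem hg)

theorem Cld.of_le {L L' : IntermediateField ℂ K} (h : Cld L') (e : L ≤ L') (hf : IsAlgebraic L f) :
    f ∈ L' :=
  h f (hf.ringHom_of_comp_eq (IntermediateField.inclusion e).toRingHom (RingHom.id K)
    (IntermediateField.inclusion_injective _) rfl)

theorem mem_fld_of_alg (h : IsAlgebraic (rts s) f) : f ∈ fld (mx s) :=
  (cld_fld _).of_le (rts_le_fld s) h

theorem big_mx (h : ∀ f : K, IsAlgebraic (rts s) f) : Big (mx s) :=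
  (big_iff_fld (eff_mx s)).2 (eq_top_iff.2 fun f _ => mem_fld_of_alg (h f))

/-- function fields have big systems -/
theorem exists_big {n : ℕ} (h : FF K n) : ∃ s : Finset K, 1 ∈ s ∧ Big (mx s) := by
  classical
  obtain ⟨y, -, hy⟩ := h
  refine ⟨insert 1 (Finset.univ.image y), Finset.mem_insert_self _ _, big_mx fun f => ?_⟩
  have e : IntermediateField.adjoin ℂ (range y) ≤ rts (insert 1 (Finset.univ.image y)) :=
    IntermediateField.adjoin_le_iff.2 fun _ ⟨i, hi⟩ => by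
      have := div_mem_rts (s := insert 1 (Finset.univ.image y)) (Finset.mem_insert_of_mem
        (Finset.mem_image_of_mem y (Finset.mem_univ i))) (Finset.mem_insert_self _ _)
      rwa [div_one, hi] at this
  exact (IsAlgebraic.of_finite _ f).ringHom_of_comp_eq (IntermediateField.inclusion e).toRingHom
    (RingHom.id K) (IntermediateField.inclusion_injective _) rfl

end Vale.Agent.P287D
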