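import Vale.Agent.P287D.Va.Alg
import Vale.Agent.P287D.Pb.Up

/-!
# P287D: descent along an algebraically closed subfield
-/

set_option linter.unusedSectionVars false

open Set
open Vale.Agent.P297Z.Pl

noncomputable section

namespace Vale.Agent.P287D

variable {K : Type} [Field K] [Algebra ℂ K] {n : ℕ} {f : K} {β γ G Λ : BD K}
  {L : IntermediateField ℂ K} {β₀ Λ₀ : BD L}

/-! ### independent coefficients -/

theorem exists_indep {ι : Type*} (T : Finset ι) (c : ι → ℝ) :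
    ∃ (m : ℕ) (r : Fin m → ℝ) (a : ι → Fin m → ℤ), LinearIndependent ℤ r ∧
      ∀ i ∈ T, c i = ∑ j, a i j * r j := by
  let M := Submodule.span ℤ (c '' T)
  have : Module.Finite ℤ M := Module.Finite.span_of_finite ℤ (T.finite_toSet.image c)
  let b := Module.finBasis ℤ M
  have h : ∀ i, ∃ a : Fin (Module.finrank ℤ M) → ℤ, i ∈ T → c i = ∑ j, a j * (b j : ℝ) :=
    fun i => by
      by_cases hi : i ∈ T
      · refine ⟨b.repr ⟨c i, Submodule.subset_span ⟨i, hi, rfl⟩⟩, fun _ => ?_⟩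
        refine (congrArg M.subtype
          (b.sum_repr ⟨c i, Submodule.subset_span ⟨i, hi, rfl⟩⟩)).symm.trans ?_
        rw [map_sum]
        exact Finset.sum_congr rfl fun j _ => by rw [map_smul, zsmul_eq_mul]; rfl
      · exact ⟨0, fun e => (hi e).elim⟩
  choose a ha using h
  exact ⟨_, fun j => b j, a, b.linearIndependent.map' M.subtype M.ker_subtype, ha⟩

theorem sum_indep {ι : Type*} {T : Finset ι} {c : ι → ℝ} {m : ℕ} {r : Fin m → ℝ}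
    {a : ι → Fin m → ℤ} (h : ∀ i ∈ T, c i = ∑ j, a i j * r j) (b : ι → BD K) :
    ∑ i ∈ T, c i • b i = ∑ j, r j • ∑ i ∈ T, (a i j : ℝ) • b i := by
  simp only [Finset.smul_sum]
  rw [Finset.sum_comm]
  exact Finset.sum_congr rfl fun i hi => by
    rw [h i hi, Finset.sum_smul]
    exact Finset.sum_congr rfl fun j _ => by rw [smul_smul, mul_comm]

theorem indep_zero {m : ℕ} {r : Fin m → ℝ} (hr : LinearIndependent ℤ r) {b : Fin m → BD K}
    (hb : ∀ j, IsZ (b j)) {Q : Pl K} (h : (∑ j, r j • b j) Q = 0) (j : Fin m) : b j Q = 0 := by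
  choose z hz using fun j => hb j Q
  rw [hz, Fintype.linearIndependent_iff.1 hr z ?_ j, Int.cast_zero]
  rw [← h, Finset.sum_apply]
  exact Finset.sum_congr rfl fun j _ => by
    rw [Pi.smul_apply, hz, zsmul_eq_mul, smul_eq_mul, mul_comm]

theorem prn_split (h : β ∈ Prn K) : ∃ (m : ℕ) (r : Fin m → ℝ) (g : Fin m → K),
    LinearIndependent ℤ r ∧ (∀ j, g j ≠ 0) ∧ β = ∑ j, r j • dv (g j) := by
  obtain ⟨T, c, h0, rfl⟩ := mem_Prn.1 h
  obtain ⟨m, r, a, hr, e⟩ := exists_indep T c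
  refine ⟨m, r, fun j => ∏ f ∈ T, f ^ a f j, hr,
    fun j => Finset.prod_ne_zero_iff.2 fun f hf => zpow_ne_zero _ (h0 f hf), ?_⟩
  rw [sum_indep e]
  refine Finset.sum_congr rfl fun j _ => ?_
  rw [dv_prod _ fun f hf => zpow_ne_zero _ (h0 f hf)]
  simp only [dv_zpow]

theorem car_split (h : β ∈ Car K) : ∃ (m : ℕ) (r : Fin m → ℝ) (b : Fin m → BD K),
    LinearIndependent ℤ r ∧ (∀ j, b j ∈ CarZ K) ∧ β = ∑ j, r j • b j := by
  obtain ⟨l, rfl⟩ := mem_Car.1 h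
  obtain ⟨m, r, a, hr, e⟩ := exists_indep l.support l
  refine ⟨m, r, _, hr, fun j => sum_mem fun s _ => ?_, sum_indep e mx⟩
  rw [Int.cast_smul_eq_zsmul]
  exact zsmul_mem (AddSubgroup.subset_closure (mem_range_self s)) _

/-! ### descent -/

section

variable (hK : FF K n)
include hK

theorem pb_inc_inj : Function.Injective (pb (inc L)) := Pb.inj (fun _ => rfl) hK

theorem pb_inc_nonneg : 0 ≤ pb (inc L) β₀ ↔ 0 ≤ β₀ :=
  Pb.nonneg_iff (φ := inc L) (fun _ => rfl) hK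

variable (hL : Cld L)
include hL

/-- a principal b-divisor without horizontal poles comes from the base -/
theorem prn_down (hγ : γ ∈ Prn K) (h : ∀ Q, Hor L Q → 0 ≤ γ Q) :
    ∃ γ₀ ∈ Prn L, γ = pb (inc L) γ₀ := by
  obtain ⟨K', _, _, φ, hφ⟩ := gen_ex n K hK L hL
  obtain ⟨m, hm, hF⟩ := Gm.ff_sub hK L
  obtain ⟨d, rfl⟩ := Nat.exists_eq_add_of_le' hm
  have hK' : FF K' d := hφ.toExt.ff hF hK
  have ok : Ok φ := hφ.toExt.ok hK'
  have a : pb φ γ = 0 := Fs.prn_zero hK' (ok.prn hγ) fun P => by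
    by_cases c : ∃ Q, Lies φ P Q
    · obtain ⟨Q, c⟩ := c
      rw [c.pb]
      exact mul_nonneg (Int.cast_nonneg_iff.2 c.e_pos.le) (h Q (hφ.toExt.hor_of c))
    · exact (pb_of_not c _).ge
  obtain ⟨k, r, g, hr, g0, rfl⟩ := prn_split hγ
  simp only [pb_sum, pb_smul, ok.pb_dv] at a
  have b : ∀ j, g j ∈ L := fun j => by
    obtain ⟨c, hc⟩ := const_of_sec hK' (f := φ (g j)) (Or.inr fun P =>
      ((add_zero _).trans (indep_zero hr (fun j => int_dv _) (congrFun a P) j)).ge)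
    exact hφ.toExt.mem_of_const hc
  refine ⟨∑ j, r j • dv (⟨g j, b j⟩ : L),
    sum_mem fun j _ => Submodule.smul_mem _ _ (dv_mem_Prn _), ?_⟩
  simp only [pb_sum, pb_smul, (hK.ok_sub L).pb_dv]
  rfl

theorem prn_hor (hγ : γ ∈ Prn K) (h : ∀ Q, Hor L Q → 0 ≤ γ Q) {Q : Pl K} (hQ : Hor L Q) :
    γ Q = 0 := by
  obtain ⟨_, -, rfl⟩ := prn_down hK hL hγ h
  exact hQ.trv.pb _

theorem pb_prn_iff : pb (inc L) β₀ ∈ Prn K ↔ β₀ ∈ Prn L :=
  ⟨fun h => let ⟨_, a, b⟩ := prn_down hK hL h fun _ e => (e.trv.pb _).ge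
    pb_inc_inj hK b ▸ a, (hK.ok_sub L).prn⟩

theorem rep_down (h : Rep (pb (inc L) β₀) G) : ∃ G₀, Rep β₀ G₀ ∧ G = pb (inc L) G₀ := by
  obtain ⟨γ₀, a, b⟩ := prn_down hK hL h.2 fun Q e => by
    rw [Pi.sub_apply, e.trv.pb, sub_zero]
    exact h.1 Q
  have e : G = pb (inc L) (γ₀ + β₀) := by rw [pb_add, ← b, sub_add_cancel]
  exact ⟨_, ⟨(pb_inc_nonneg hK).1 (e ▸ h.1), by simpa using a⟩, e⟩

theorem pb_eff_iff : Eff (pb (inc L) β₀) ↔ Eff β₀ :=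
  ⟨fun ⟨_, h⟩ => let ⟨_, a, _⟩ := rep_down hK hL h; a.eff, (hK.ok_sub L).eff⟩

theorem mem_of_sec_pb (h : Sec (pb (inc L) β₀) f) : f ∈ L :=
  hL.mem_of_hor hK fun P e => pld_eq_zero.1 (le_antisymm (by
    rcases h with rfl | h
    · simp [pld_apply]
    · have := h P
      rw [Pi.add_apply, e.trv.pb, add_zero] at this
      exact max_le le_rfl (neg_nonpos.2 this)) (pld_nonneg f P))

theorem pb_smp_iff : Smp (pb (inc L) β₀) ↔ Smp β₀ := by
  refine ⟨fun h => ?_, (hK.ok_sub L).smp⟩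
  obtain ⟨a, b, c⟩ := smp_down hK h (fld_pb_le hK hL _)
  exact b.congr ((pb_prn_iff hK hL).1 (pb_sub (inc L) _ _ ▸ c))

theorem pb_dsc_iff : Dsc (pb (inc L) Λ₀) (pb (inc L) β₀) ↔ Dsc Λ₀ β₀ := by
  simp only [Dsc, ← pb_smul, ← pb_add, ← pb_sub, pb_smp_iff hK hL]

theorem pb_ampOn_iff : AmpOn (pb (inc L) Λ₀) (pb (inc L) β₀) ↔ AmpOn Λ₀ β₀ := by
  simp only [AmpOn, pb_dsc_iff hK hL, ← pb_smul, ← pb_sub, pb_smp_iff hK hL]

omit hL in
theorem Dsc.down (h : Dsc Λ β) (e : fld Λ ≤ L) :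
    ∃ β₀ ∈ Car L, β - pb (inc L) β₀ ∈ Prn K := by
  obtain ⟨A, A', a, a', rfl⟩ := h.exists_amp_sub
  obtain ⟨b, b1, b2⟩ := smp_down hK a.smp (a.fld_eq ▸ e)
  obtain ⟨c, c1, c2⟩ := smp_down hK a'.smp (a'.fld_eq ▸ e)
  exact ⟨b - c, sub_mem b1.car c1.car, by
    rw [pb_sub, sub_sub_sub_comm]
    exact sub_mem b2 c2⟩

/-- **FLD.des**, the divisors -/
theorem dsc_pb_iff : Dsc (pb (inc L) Λ₀) β ↔ ∃ β₀, Dsc Λ₀ β₀ ∧ β - pb (inc L) β₀ ∈ Prn K :=
  ⟨fun h => let ⟨b, _, c⟩ := h.down hK (fld_pb_le hK hL _)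
    ⟨b, (pb_dsc_iff hK hL).1 (h.congr (by simpa using neg_mem c)), c⟩,
    fun ⟨_, a, b⟩ => ((hK.ok_sub L).dsc a).congr b⟩

theorem cle_pb_iff {P P' : Pl K} {Q Q' : Pl L} (h : Lies (inc L) P Q) (h' : Lies (inc L) P' Q') :
    CLe (pb (inc L) Λ₀) P P' ↔ CLe Λ₀ Q Q' := by
  have k : ∀ {P : Pl K} {Q : Pl L}, Lies (inc L) P Q → ∀ G, 0 < pb (inc L) G P ↔ 0 < G Q :=
    fun h G => by rw [h.pb, mul_pos_iff_of_pos_left (Int.cast_pos.2 h.e_pos)]
  refine ⟨fun e G a b => (k h G).1 (e _ ((hK.ok_sub L).rep a) ((k h' G).2 b)), fun e G a b => ?_⟩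
  obtain ⟨G₀, c, rfl⟩ := rep_down hK hL a
  exact (k h _).2 (e _ c ((k h' _).1 b))

end

/-- the members of a semiample class are vertical -/
theorem Rep.hor (h : Rep Λ G) (hK : FF K n) (hΛ : Smp Λ) {P : Pl K} (hP : Hor (fld Λ) P) :
    G P = 0 := by
  obtain ⟨Λ₀, -, -, a⟩ := fld_down hK hΛ
  obtain ⟨_, -, rfl⟩ := rep_down hK (cld_fld Λ) (h.congr (by simpa using neg_mem a))
  exact hP.trv.pb _

theorem Hor.cle (hK : FF K n) (hΛ : Smp Λ) {P : Pl K} (hP : Hor (fld Λ) P) (R : Pl K) :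
    CLe Λ R P := fun _ h e => (e.ne' (h.hor hK hΛ hP)).elim

/-- a place where all the members vanish is horizontal -/
theorem hor_of_rep (hΛ : Eff Λ) {P : Pl K} (h : ∀ G, Rep Λ G → G P = 0) : Hor (fld Λ) P :=
  fun f hf => by
    obtain ⟨ε, e0, G, a⟩ := (mem_fld hΛ).1 hf
    have p0 := smul_nonneg e0.le (pld_nonneg f)
    have b := h _ (by simpa using a.add (.refl p0))
    have c := a.1 P
    have d := pld_nonneg f P
    simp only [Pi.add_apply, Pi.smul_apply, smul_eq_mul, Pi.zero_apply] at b c d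
    exact pld_eq_zero.1 (le_antisymm (by nlinarith) d)

theorem hor_iff_rep (hK : FF K n) (hΛ : Smp Λ) {P : Pl K} :
    Hor (fld Λ) P ↔ ∀ G, Rep Λ G → G P = 0 :=
  ⟨fun h _ a => a.hor hK hΛ h, hor_of_rep hΛ.eff⟩

/-- a semiample class of dimension zero is trivial -/
theorem prn_iff_dim (hK : FF K n) (hΛ : Smp Λ) : Λ ∈ Prn K ↔ dim Λ = 0 := by
  rw [← fld_eq_bot_iff hK]
  refine ⟨fld_prn hK, fun h => ?_⟩
  obtain ⟨G, a⟩ := hΛ.eff
  have : G = 0 := funext fun P => a.hor hK hΛ fun f hf => by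
    obtain ⟨c, rfl⟩ := IntermediateField.mem_bot.1 (h ▸ hf)
    exact P.con c
  simpa [this] using a.2

/-- **FLD** from its two geometric clauses -/
theorem fld_of
    (nd : ForK fun n K _ _ => ∀ (Λ A : BD K) (j : ℕ), Smp Λ → Nef A → Big A → j ≤ n →
      (0 < I n K (fun i => if i.1 < j then Λ else A) ↔ j ≤ dim Λ))
    (cen : ForS fun n K _ _ => ∀ (Λ : BD K) (P Q : Pl K), Smp Λ → (On n Λ P ↔ cd Λ P = n) ∧
      (Hor (fld Λ) P ↔ ∀ R, CLe Λ R P) ∧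
      (CLe Λ P Q → cd Λ P ≤ cd Λ Q ∧ (cd Λ P = cd Λ Q → CLe Λ Q P))) : FLD where
  cld _ _ _ _ _ Λ _ := cld_fld Λ
  top _ _ _ _ _ _ h := big_iff_fld h.eff
  ff _ _ _ _ hK := ff_fld hK
  down _ _ _ _ hK _ := fld_down hK
  des _ _ _ _ hK _ _ hL _ h := ⟨fld_pb hK hL h, fun _ => dsc_pb_iff hK hL⟩
  nd := nd
  le _ _ _ _ _ _ _ _ _ := Dsc.fld_le
  cen := cen

end Vale.Agent.P287D
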