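import Vale.Agent.P287D.Va.Des
import Vale.Agent.P287D.Ba.Hy
import Vale.Agent.P287D.In.Int
import Vale.Agent.P287D.Pb.Deg

/-!
# P287D: the numerical dimension of a semiample b-divisor
-/

set_option linter.unusedSectionVars false

open Set
open Vale.Agent.P297Z.Pl

noncomputable section

namespace Vale.Agent.P287D

variable {K : Type} [Field K] [Algebra ℂ K] {n : ℕ} {f : K} {Λ A : BD K}

theorem res_pld (hK : FF K (n + 1)) (P : Pl K) (hf : f ∈ P.ring) :
    res P (pld f) = pld (P.rd f) := by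
  classical
  have e : P.mz {1, f} = 0 := by
    have := pld_eq_zero.2 hf
    rw [← mx_pld, mx_apply] at this
    exact_mod_cast this
  have k : P.rd 1 = 1 := Bm.rd_one P
  rw [← mx_pld, ← mx_pld, res_mx hK, Pl.rs, e]
  simp only [zpow_zero, mul_one, Finset.image_insert, Finset.image_singleton, k]

/-- a term of an intersection number of an effective with nef b-divisors -/
theorem term_le_I (hK : FF K (n + 1)) {Z : BD K} (hZ : IsB n Z) (h0 : 0 ≤ Z) {b : Fin n → BD K}
    (hb : ∀ i, Nef (b i)) (P : Pl K) :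
    Z P * I n P.κ (fun i => res P (b i)) ≤ I (n + 1) K (Fin.cons Z b) :=
  single_le_finsum P (In.hy.fin hK hZ fun i => (hb i).car) fun Q =>
    mul_nonneg (h0 Q) (In.hy.cf_nef hK Q hb)

/-- the poles of a transcendence basis meet -/
theorem I_pld_pos (n : ℕ) : ∀ (K : Type) [Field K] [Algebra ℂ K], FF K n → ∀ y : Fin n → K,
    AlgebraicIndependent ℂ y → 0 < I n K fun i => pld (y i) := by
  induction n with
  | zero => exact fun _ _ _ _ _ _ => one_pos
  | succ n ih =>
    intro K _ _ hK y hy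
    obtain ⟨P, a, b⟩ := exists_pole hK
      (L := IntermediateField.adjoin ℂ (y '' range Fin.succ)) (f := y 0)
      (IntermediateField.transcendental_adjoin_iff.2 (hy.transcendental_adjoin (by simp)))
    have m : ∀ i : Fin n, y i.succ ∈ IntermediateField.adjoin ℂ (y '' range Fin.succ) := fun i =>
      IntermediateField.subset_adjoin _ _ ⟨_, ⟨i, rfl⟩, rfl⟩
    have c : AlgebraicIndependent ℂ fun i : Fin n => P.rd (y i.succ) := by
      have := (AlgebraicIndependent.of_comp (IntermediateField.val _)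
        (x := fun i : Fin n => (⟨y i.succ, m i⟩ : IntermediateField.adjoin ℂ _))
        (hy.comp _ (Fin.succ_injective n))).map' (f := On.rE P _ a) (On.rE P _ a).injective
      simpa only [Function.comp_def, On.rE_apply] using this
    refine lt_of_lt_of_le ?_ (term_le_I hK (Ba.isB_car hK (pld_car (y 0))) (pld_nonneg _)
      (b := fun i => pld (y i.succ)) (fun i => (smp_pld _).nef) P)
    simp only [fun i => res_pld hK P (a _ (m i))]
    exact mul_pos (pld_pos.2 b) (ih _ (Gm.ff_κ P hK) _ c)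

/-- positivity from independent functions -/
theorem I_pos_of_ind (hK : FF K n) {b : Fin n → BD K} (hb : ∀ i, Nef (b i)) (he : ∀ i, Eff (b i))
    {y : Fin n → K} (hy : AlgebraicIndependent ℂ y) (h : ∀ i, y i ∈ fld (b i)) : 0 < I n K b := by
  choose ε a c using fun i => (mem_fld (he i)).1 (h i)
  refine lt_of_lt_of_le ?_ ((In.hy.row n K hK).mono (a := fun i => ε i • pld (y i))
    (fun i => (smp_pld _).nef.smul (a i).le) hb fun i => (c i).psef)
  rw [(In.hy.row n K hK).ml.smul_all ε _ fun _ => pld_car _]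
  exact mul_pos (Finset.prod_pos fun i _ => a i) (I_pld_pos n K hK y hy)

/-- a transcendence basis which starts with a basis of a subfield -/
theorem exists_ind (hK : FF K n) {L : IntermediateField ℂ K} {d : ℕ} (hL : FF L d) :
    ∃ y : Fin n → K, AlgebraicIndependent ℂ y ∧ ∀ i : Fin n, i.1 < d → y i ∈ L := by
  obtain ⟨m, hm, hF⟩ := Gm.ff_sub hK L
  obtain rfl := Gm.ff_uniq hL hF
  obtain ⟨r, rfl⟩ := Nat.exists_eq_add_of_le hm
  obtain ⟨a, ha⟩ := Gm.exists_basis ℂ L hL.trdeg
  obtain ⟨b, hb⟩ := Gm.exists_basis L K (trdeg_sub hL (add_comm m r ▸ hK))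
  refine ⟨_, (ha.1.sumElim_comp hb.1).comp (Sum.swap ∘ finSumFinEquiv.symm)
    (Sum.swap_leftInverse.injective.comp finSumFinEquiv.symm.injective), fun i hi => ?_⟩
  rw [show i = Fin.castAdd r ⟨i, hi⟩ from rfl]
  simp only [Function.comp_apply, finSumFinEquiv_symm_apply_castAdd, Sum.swap_inl, Sum.elim_inr]
  exact (a _).2

/-- too many classes from a small subfield -/
theorem I_eq_zero_of_fld (hK : FF K n) {L : IntermediateField ℂ K} {d : ℕ} (hL : FF L d)
    {b : Fin n → BD K} (hb : ∀ i, b i ∈ Car K) (J : Finset (Fin n)) (hJ : d < J.card)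
    (h : ∀ i ∈ J, ∃ γ ∈ Car L, b i - pb (inc L) γ ∈ Prn K) : I n K b = 0 := by
  classical
  choose! γ a c using h
  have k : ∀ i, (if i ∈ J then pb (inc L) (γ i) else b i) ∈ Car K := fun i => by
    split_ifs with e
    exacts [(hK.ok_sub L).car (a i e), hb i]
  rw [Pb.I_congr In.hy hK k (γ := b) fun i => by
    split_ifs with e
    exacts [c i e, by simp]]
  exact Pb.low In.hy res' n d L K (inc L) hL hK (.of_lin fun _ => rfl) _ J hJ (fun i _ => k i)
    fun i e => ⟨γ i, a i e, if_pos e⟩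

theorem I_eq_zero_of_dsc (hK : FF K n) {b : Fin n → BD K} (hb : ∀ i, b i ∈ Car K)
    (J : Finset (Fin n)) (hJ : dim Λ < J.card) (h : ∀ i ∈ J, Dsc Λ (b i)) : I n K b = 0 :=
  I_eq_zero_of_fld hK (ff_fld hK Λ) hb J hJ fun i e => (h i e).down hK le_rfl

/-- **FLD.nd** -/
theorem fld_nd : ForK fun n K _ _ => ∀ (Λ A : BD K) (j : ℕ), Smp Λ → Nef A → Big A → j ≤ n →
    (0 < I n K (fun i => if i.1 < j then Λ else A) ↔ j ≤ dim Λ) := by
  intro n K _ _ hK Λ A j hΛ hA hB hj
  refine ⟨fun h => not_lt.1 fun e => h.ne' ?_, fun h => ?_⟩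
  · refine I_eq_zero_of_dsc (Λ := Λ) hK (fun i => ?_) (Finset.univ.filter fun i => i.1 < j) ?_
      fun i hi => ?_
    · split_ifs
      exacts [hΛ.car, hA.car]
    · rwa [Fin.card_filter_val_lt, min_eq_right hj]
    · rw [if_pos (Finset.mem_filter.1 hi).2]
      exact .refl hΛ
  · obtain ⟨y, hy, m⟩ := exists_ind hK (ff_fld hK Λ)
    refine I_pos_of_ind hK (fun i => ?_) (fun i => ?_) hy fun i => ?_ <;> split_ifs with e
    exacts [hΛ.nef, hA, hΛ.eff, hB.eff, m i (e.trans_le h), hB.fld_eq ▸ trivial]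

/-- the first clause of **FLD.cen** -/
theorem on_iff_cd (hK : FF K (n + 1)) (hΛ : Smp Λ) (P : Pl K) : On n Λ P ↔ cd Λ P = n :=
  (on_iff_big hK P hΛ.nef).trans (big_iff_dim (Gm.ff_κ P hK) (res_smp hK P hΛ).eff)

theorem cd_le (hK : FF K (n + 1)) (Λ : BD K) (P : Pl K) : cd Λ P ≤ n := dim_le (Gm.ff_κ P hK) _

end Vale.Agent.P287D
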